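import Vale.Agent.P248.Quarter

/-
P248: the exact volume product for bodies with quarter turns in the planes of `n - 2` coordinates.

Two lines in the free plane are chosen so that all four sectors cut equal parts from the body and
from a mirror section: the first condition fixes the second line as a function of the first, and
interchanging the lines changes the sign of the second condition. In the new coordinates every
orthant gets the same share, so a box lies in the polar body and the induction closes exactly.
-/

namespace Vale.Agent.P248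

open MeasureTheory Set Filter
open scoped ENNReal Topology symmDiff

variable {n : ℕ}

/-- Every orthant has the same share of `K` and of its sections by coordinate hyperplanes. -/
def Balanced (K : Set (Fin (n + 1) → ℝ)) : Prop :=
  ∀ x ∈ K, 2 * ∑ i, |x i| * volume.real (sec i K) ≤ (n + 1) * volume.real K

/-- A box in the polar body gives the step of the induction. -/
theorem balanced_step {K : Set (Fin (n + 1) → ℝ)} (hK : Good K) (hb : Balanced K) :
    4 * ∑ i, volume.real (sec i K) * volume.real (pol (sec i K))
      ≤ (n + 1) ^ 2 * (volume.real K * volume.real (pol K)) := by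
  classical
  set L := pol K with hL
  have hLg := hK.pol
  set V := volume.real K with hV
  have hVpos : 0 < V := ENNReal.toReal_pos
    (Measure.measure_pos_of_mem_nhds volume hK.mem_nhds).ne' hK.compact.measure_lt_top.ne
  set c : ℝ := 2 / ((n + 1) * V) with hc
  have hc0 : 0 ≤ c := by positivity
  set y : Fin (n + 1) → ℝ := fun i => c * volume.real (sec i K) with hy
  have hy0 : ∀ i, 0 ≤ y i := fun i => mul_nonneg hc0 measureReal_nonneg
  set l := (Finset.univ.toList : List (Fin (n + 1))).map fun i => Pi.single i (y i) with hl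
  have hzono : ∀ m : List (Fin (n + 1)), m.Nodup →
      zono (m.map fun i => Pi.single i (y i))
        ⊆ {z | ∀ i, |z i| ≤ if i ∈ m then y i else 0} := by
    intro m
    induction m with
    | nil => intro _ z hz i; simp [zono] at hz; simp [hz]
    | cons j m ih =>
      intro hnd z hz i
      obtain ⟨hj, hnd'⟩ := List.nodup_cons.1 hnd
      obtain ⟨⟨q, a⟩, ⟨hq, ha⟩, rfl⟩ := hz
      have hqi := ih hnd' hq i
      by_cases hij : i = j
      · subst hij
        rw [if_neg hj] at hqi
        have hq0 : q i = 0 := abs_eq_zero.1 (le_antisymm hqi (abs_nonneg _))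
        simp only [List.mem_cons, true_or, if_true, Pi.add_apply, Pi.smul_apply,
          Pi.single_eq_same, hq0, zero_add, smul_eq_mul, abs_mul, abs_of_nonneg (hy0 i)]
        exact mul_le_of_le_one_left (hy0 i) (abs_le.2 ha)
      · simpa [List.mem_cons, hij] using hqi
  have hbox : zono l ⊆ L := by
    intro z hz x hx
    have hzi := hzono _ (Finset.nodup_toList _) hz
    calc dotProduct x z ≤ ∑ i, |x i| * y i := Finset.sum_le_sum fun i _ => by
          refine (le_abs_self _).trans ?_
          rw [abs_mul]
          exact mul_le_mul_of_nonneg_left (by simpa using hzi i) (abs_nonneg _)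
      _ = c / 2 * (2 * ∑ i, |x i| * volume.real (sec i K)) := by
          rw [Finset.mul_sum, Finset.mul_sum]
          exact Finset.sum_congr rfl fun i _ => by simp only [hy]; ring
      _ ≤ c / 2 * ((n + 1) * V) := mul_le_mul_of_nonneg_left (hb x hx) (by positivity)
      _ = 1 := by rw [hc]; field_simp
  set w : (Fin (n + 1) → ℝ) → ℝ := fun d => ∑ i, 2 * d i * volume.real (i.removeNth '' L)
  have hw : ∀ i, w (Pi.single i (y i)) = 2 * y i * volume.real (i.removeNth '' L) := fun i => by
    simp only [w]
    rw [Finset.sum_eq_single i (fun j _ hj => by simp [Pi.single_eq_of_ne hj]) (by simp)]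
    simp
  have h := zono_bound hLg.compact hLg.convex w l ?_ hbox
  · simp only [hl, List.map_map, Function.comp_def, hw, Finset.sum_map_toList] at h
    have h2 : ∑ i, 2 * y i * volume.real (pol (sec i K)) ≤ ∑ i, 2 * y i *
        volume.real (i.removeNth '' L) :=
      Finset.sum_le_sum fun i _ => mul_le_mul_of_nonneg_left (measureReal_mono (pol_sec_proj hK i)
        (hLg.compact.image (continuous_removeNth' i)).measure_lt_top.ne) (by linarith [hy0 i])
    have h3 := mul_le_mul_of_nonneg_left (h2.trans h) (by positivity : (0 : ℝ) ≤ (n + 1) * V)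
    refine le_trans (le_of_eq ?_) (h3.trans (le_of_eq ?_))
    · rw [Finset.mul_sum, Finset.mul_sum]
      refine Finset.sum_congr rfl fun i _ => ?_
      simp only [hy, hc]
      field_simp
      ring
    · push_cast; ring
  · intro d hd A hA hAc hLA ε hε
    obtain ⟨i, -, rfl⟩ := List.mem_map.1 hd
    have he : ε • Pi.single i (y i) = (Pi.single i (ε * y i) : Fin (n + 1) → ℝ) := by
      rw [← Pi.single_smul]; rfl
    rw [hw, he]
    refine le_trans ?_ (grow_axis (mul_nonneg hε (hy0 i)) hA hAc)
    have hm : volume.real (i.removeNth '' L) ≤ volume.real (i.removeNth '' A) :=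
      measureReal_mono (image_mono hLA) (hA.image (continuous_removeNth' i)).measure_lt_top.ne
    have := mul_le_mul_of_nonneg_left hm (mul_nonneg hε (hy0 i))
    linarith

/-- The positive orthant part after changing the signs of the coordinates in `A`. -/
lemma negOn_preimage_volume (A : Finset (Fin n)) {S : Set (Fin n → ℝ)} (hS : MeasurableSet S) :
    volume.real (negOn A ⁻¹' S) = volume.real S := by
  rw [measureReal_def, (negOn_preserving A).measure_preimage hS.nullMeasurableSet, ← measureReal_def]

lemma sec_negOn (i : Fin (n + 1)) (A : Finset (Fin (n + 1))) (K : Set (Fin (n + 1) → ℝ)) :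
    sec i (negOn A ⁻¹' K) = negOn (below i A) ⁻¹' sec i K := by
  ext f
  have e : negOn A (i.insertNth 0 f) = i.insertNth 0 (negOn (below i A) f) := by
    refine Fin.eq_insertNth_iff.2 ⟨by simp [negOn], ?_⟩
    funext l
    simp [negOn, Fin.removeNth, below]
  simp only [mem_sec, mem_preimage, e]

/-- Every coordinate in `M` has a quarter turn within `M` or a mirror. -/
def Turned (M : Finset (Fin n)) (S : Set (Fin n → ℝ)) : Prop :=
  ∀ i ∈ M, ∃ k ∈ M, ∀ p ∈ S, qt i k p ∈ S

lemma Turned.inter {M : Finset (Fin n)} {S P : Set (Fin n → ℝ)} (hS : Turned M S)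
    (hP : ∀ i ∈ M, ∀ k ∈ M, ∀ p ∈ P, qt i k p ∈ P) : Turned M (S ∩ P) := fun i hi => by
  obtain ⟨k, hk, h⟩ := hS i hi
  exact ⟨k, hk, fun p hp => ⟨h p hp.1, hP i hi k hk p hp.2⟩⟩

lemma qt_fix {i k l : Fin n} (hi : l ≠ i) (hk : l ≠ k) (p : Fin n → ℝ) : qt i k p l = p l := by
  rw [qt_apply, if_neg hi, if_neg hk]

/-- Quarter turns equate all sign patterns on `M`. -/
lemma flip_eq {S : Set (Fin n → ℝ)} (hS : MeasurableSet S) {M : Finset (Fin n)} (h : Turned M S)
    {A : Finset (Fin n)} (hA : A ⊆ M) :
    volume (negOn A ⁻¹' S ∩ orth M) = volume (S ∩ orth M) := by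
  induction A using Finset.induction_on with
  | empty =>
    rw [show negOn (∅ : Finset (Fin n)) = id from funext fun p => funext fun i => by simp [negOn]]
    rfl
  | insert i A hiA ih =>
    obtain ⟨hi, hA'⟩ := Finset.insert_subset_iff.1 hA
    rw [← ih hA']
    obtain ⟨k, hk, hinv⟩ := h i hi
    have hiff : ∀ p, qt i k p ∈ S ↔ p ∈ S := fun p =>
      ⟨fun hp => qt_four i k p ▸ hinv _ (hinv _ (hinv _ hp)), hinv p⟩
    have key : ∀ B : Finset (Fin n), (i ∈ B ↔ k ∈ B) →
        volume (negOn (B ∆ {i}) ⁻¹' S ∩ orth M) = volume (negOn B ⁻¹' S ∩ orth M) := by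
      intro B hB
      have hmp := volume_measurePreserving_piCongrLeft (fun _ : Fin n => ℝ) (Equiv.swap i k)
      have happ : ∀ (p : Fin n → ℝ) j,
          MeasurableEquiv.piCongrLeft (fun _ : Fin n => ℝ) (Equiv.swap i k) p j
            = p (Equiv.swap i k j) := fun p j => by
        have h2 := MeasurableEquiv.piCongrLeft_apply_apply (β := fun _ : Fin n => ℝ)
          (Equiv.swap i k) p (Equiv.swap i k j)
        rwa [Equiv.swap_apply_self] at h2
      have hm : MeasurableSet (negOn (B ∆ {i}) ⁻¹' S ∩ orth M) :=
        (hS.preimage (negOn_preserving _).measurable).inter (isClosed_orth M).measurableSet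
      rw [← hmp.measure_preimage hm.nullMeasurableSet]
      congr 1
      ext p
      simp only [mem_preimage, mem_inter_iff, orth, Set.mem_ofPred_eq]
      have e : negOn (B ∆ {i}) (MeasurableEquiv.piCongrLeft (fun _ : Fin n => ℝ) (Equiv.swap i k) p)
          = qt i k (negOn B p) := by
        funext j
        simp only [negOn, qt, happ, Finset.mem_symmDiff, Finset.mem_singleton]
        by_cases hji : j = i
        · subst hji
          simp only [Equiv.swap_apply_left, hB]
          by_cases hkB : k ∈ B <;> simp [hkB]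
        · by_cases hjk : j = k
          · subst hjk; simp [hji, hB]
          · simp [hji, Equiv.swap_apply_of_ne_of_ne hji hjk]
      rw [e, hiff]
      refine and_congr Iff.rfl ⟨fun hp j hj => ?_, fun hp j hj => ?_⟩
      · have := hp (Equiv.swap i k j) (by
          rw [Equiv.swap_apply_def]; split_ifs <;> assumption)
        rwa [happ, Equiv.swap_apply_self] at this
      · rw [happ]
        exact hp _ (by rw [Equiv.swap_apply_def]; split_ifs <;> assumption)
    have e : insert i A = A ∆ {i} := by
      ext j
      simp only [Finset.mem_insert, Finset.mem_symmDiff, Finset.mem_singleton]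
      by_cases hji : j = i
      · subst hji; simp [hiA]
      · simp [hji]
    rw [e]
    by_cases hB : i ∈ A ↔ k ∈ A
    · exact key A hB
    · have hik : k ≠ i := fun e => hB (by rw [e])
      have := key (A ∆ {i}) (by
        simp only [Finset.mem_symmDiff, Finset.mem_singleton, hik]
        tauto)
      rw [symmDiff_symmDiff_cancel_right] at this
      exact this.symm

/-- The positive part of `M` is one share out of `2 ^ |M|`. -/
lemma split_turns {S : Set (Fin n → ℝ)} (hS : MeasurableSet S) {M : Finset (Fin n)}
    (h : Turned M S) : volume S = 2 ^ M.card * volume (S ∩ orth M) := by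
  suffices key : ∀ B ⊆ M, ∀ A ⊆ M, volume (negOn A ⁻¹' S ∩ orth (M \ B))
      = 2 ^ B.card * volume (S ∩ orth M) by
    have := key M subset_rfl ∅ (Finset.empty_subset _)
    simpa [show negOn (∅ : Finset (Fin n)) = id from funext fun p => funext fun i => by simp [negOn],
      orth] using this
  intro B
  induction B using Finset.induction_on with
  | empty => intro _ A hA; simpa using flip_eq hS h hA
  | insert a B haB ih =>
    intro hB A hA
    obtain ⟨ha, hB'⟩ := Finset.insert_subset_iff.1 hB
    set X := negOn A ⁻¹' S ∩ orth (M \ insert a B) with hX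
    have hXm : MeasurableSet X :=
      (hS.preimage (negOn_preserving _).measurable).inter (isClosed_orth _).measurableSet
    set P := {p : Fin n → ℝ | 0 ≤ p a}
    have hP : MeasurableSet P := measurableSet_le measurable_const (measurable_pi_apply a)
    have e1 : X ∩ P = negOn A ⁻¹' S ∩ orth (M \ B) := by
      ext p
      simp only [hX, P, mem_inter_iff, mem_preimage, orth, Set.mem_ofPred_eq, Finset.mem_sdiff,
        Finset.mem_insert, not_or]
      refine ⟨fun ⟨⟨x, y⟩, z⟩ => ⟨x, fun i hi => ?_⟩, fun ⟨x, y⟩ =>
        ⟨⟨x, fun i hi => y i ⟨hi.1, hi.2.2⟩⟩, y a ⟨ha, haB⟩⟩⟩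
      by_cases hia : i = a
      · exact hia ▸ z
      · exact y i ⟨hi.1, hia, hi.2⟩
    have e2 : volume (X \ P) = volume (negOn (A ∆ {a}) ⁻¹' S ∩ orth (M \ B)) := by
      have hAa : ∀ p, negOn (A ∆ {a}) p = negOn A (negOn {a} p) := fun p => by
        funext i
        simp only [negOn, Finset.mem_symmDiff, Finset.mem_singleton]
        by_cases hia : i = a
        · subst hia; by_cases hiA : i ∈ A <;> simp [hiA]
        · simp [hia]
      have e3 : negOn {a} ⁻¹' (X ∩ {p | p a ≤ 0})
          = negOn (A ∆ {a}) ⁻¹' S ∩ orth (M \ B) := by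
        ext p
        simp only [hX, mem_preimage, mem_inter_iff, orth, Set.mem_ofPred_eq, Finset.mem_sdiff,
          Finset.mem_insert, not_or, hAa, negOn, Finset.mem_singleton, if_true,
          Left.neg_nonpos_iff]
        refine ⟨fun ⟨⟨x, y⟩, z⟩ => ⟨x, fun i hi => ?_⟩, fun ⟨x, y⟩ =>
          ⟨⟨x, fun i hi => by rw [if_neg hi.2.1]; exact y i ⟨hi.1, hi.2.2⟩⟩, y a ⟨ha, haB⟩⟩⟩
        by_cases hia : i = a
        · exact hia ▸ z
        · have := y i ⟨hi.1, hia, hi.2⟩
          rwa [if_neg hia] at this
      rw [← e3, (negOn_preserving {a}).measure_preimage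
        (hXm.inter (measurableSet_le (measurable_pi_apply a) measurable_const)).nullMeasurableSet]
      refine le_antisymm (measure_mono fun p hp => ⟨hp.1, show p a ≤ 0 from le_of_lt (not_le.1 hp.2)⟩) ?_
      refine (measure_mono (t := (X \ P) ∪ {p | p a = 0}) fun p hp => ?_).trans
        ((measure_union_le _ _).trans (by simp [volume_coord_zero]))
      rcases (show p a ≤ 0 from hp.2).eq_or_lt with h | h
      · exact Or.inr h
      · exact Or.inl ⟨hp.1, fun hc => absurd (show 0 ≤ p a from hc) (not_le.2 h)⟩
    rw [← measure_inter_add_sdiff (μ := volume) X hP, e1, e2, ih hB' A hA,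
      ih hB' (A ∆ {a}) (fun i hi => by
        simp only [Finset.mem_symmDiff, Finset.mem_singleton] at hi
        rcases hi with ⟨h1, -⟩ | ⟨h1, -⟩
        · exact hA h1
        · exact h1 ▸ ha),
      Finset.card_insert_of_notMem haB, pow_succ]
    ring

/-- One more halving by a coordinate outside `M`. -/
lemma split_turns_extra {S : Set (Fin n → ℝ)} (hS : MeasurableSet S) (hneg : ∀ p ∈ S, -p ∈ S)
    {M : Finset (Fin n)} (h : Turned M S) {t : Fin n} (ht : t ∉ M) :
    volume.real S = 2 ^ (M.card + 1) * volume.real (S ∩ orth (insert t M)) := by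
  have e : S ∩ orth (insert t M) = S ∩ {p : Fin n → ℝ | 0 ≤ p t} ∩ orth M := by
    ext p; simp [orth, and_assoc]
  have h1 := halve hS (A := Finset.univ) (a := t) (Finset.mem_univ t) fun p hp => by
    convert hneg p hp using 1
    funext i; simp [negOn]
  have hP : MeasurableSet {p : Fin n → ℝ | 0 ≤ p t} :=
    measurableSet_le measurable_const (measurable_pi_apply t)
  have h2 := split_turns (hS.inter hP) (h.inter fun i hi k hk p hp => by
    show 0 ≤ qt i k p t
    rwa [qt_fix (fun e : t = i => ht (e ▸ hi)) (fun e : t = k => ht (e ▸ hk))])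
  rw [measureReal_def, measureReal_def, h1, h2, e, ENNReal.toReal_mul, ENNReal.toReal_mul,
    ENNReal.toReal_pow, ENNReal.toReal_ofNat]
  ring

lemma Turned.preimage_negOn {M A : Finset (Fin n)} {S : Set (Fin n → ℝ)} (h : Turned M S)
    (hA : ∀ i ∈ A, i ∉ M) : Turned M (negOn A ⁻¹' S) := fun i hi => by
  obtain ⟨k, hk, hinv⟩ := h i hi
  refine ⟨k, hk, fun p hp => ?_⟩
  show negOn A (qt i k p) ∈ S
  have e : negOn A (qt i k p) = qt i k (negOn A p) := by
    funext j
    have h1 : i ∉ A := fun x => hA i x hi
    have h2 : k ∉ A := fun x => hA k x hk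
    simp only [negOn, qt_apply]
    split_ifs <;> simp_all
  rw [e]
  exact hinv _ hp

lemma Turned.sec {M : Finset (Fin (n + 1))} {K : Set (Fin (n + 1) → ℝ)} (h : Turned M K)
    (i : Fin (n + 1)) : Turned (below i M) (sec i K) := by
  intro a ha
  obtain ⟨k, hk, hinv⟩ := h (i.succAbove a) (by simpa [below] using ha)
  rcases eq_or_ne k i with rfl | hki
  · refine ⟨a, ha, fun f hf => ?_⟩
    rw [mem_sec, ← qt_qt_insertNth]
    exact hinv _ (hinv _ hf)
  · obtain ⟨k', rfl⟩ := Fin.exists_succAbove_eq hki
    refine ⟨k', by simpa [below] using hk, fun f hf => ?_⟩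
    rw [mem_sec, ← qt_insertNth]
    exact hinv _ hf

/-- The orthants lie in two classes once the mirrors of `M` and the central symmetry act. -/
lemma orth_share {K : Set (Fin n → ℝ)} (hK : IsCompact K) (hneg : ∀ p ∈ K, -p ∈ K)
    {M : Finset (Fin n)} (hM : Turned M K) {t u : Fin n} (htu : t ≠ u) (ht : t ∉ M) (hu : u ∉ M)
    (huniv : insert t (insert u M) = Finset.univ)
    (hV : 2 ^ n * volume.real (K ∩ orth Finset.univ) = volume.real K) (A : Finset (Fin n)) :
    2 ^ n * volume.real (negOn A ⁻¹' K ∩ orth Finset.univ) = volume.real K := by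
  have hKm := hK.isClosed.measurableSet
  have hom := (isClosed_orth (Finset.univ : Finset (Fin n))).measurableSet
  -- only the signs of `t` and `u` matter
  have hred : ∀ B : Finset (Fin n), volume.real (negOn B ⁻¹' K ∩ orth Finset.univ)
      = volume.real (negOn (B \ M) ⁻¹' K ∩ orth Finset.univ) := by
    intro B
    set S := negOn (B \ M) ⁻¹' K ∩ {p | 0 ≤ p t ∧ 0 ≤ p u} with hSdef
    have hS : Turned M S := (hM.preimage_negOn fun i hi => (Finset.mem_sdiff.1 hi).2).inter
      fun i hi k hk p hp => by
        show 0 ≤ qt i k p t ∧ 0 ≤ qt i k p u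
        rwa [qt_fix (fun e : t = i => ht (e ▸ hi)) (fun e : t = k => ht (e ▸ hk)),
          qt_fix (fun e : u = i => hu (e ▸ hi)) (fun e : u = k => hu (e ▸ hk))]
    have hSm : MeasurableSet S := (hKm.preimage (negOn_preserving _).measurable).inter
      ((measurableSet_le measurable_const (measurable_pi_apply t)).inter
        (measurableSet_le measurable_const (measurable_pi_apply u)))
    have e0 : S ∩ orth M = negOn (B \ M) ⁻¹' K ∩ orth Finset.univ := by
      ext p; simp [hSdef, orth, ← huniv, and_assoc]
    have e1 : negOn (B ∩ M) ⁻¹' S ∩ orth M = negOn B ⁻¹' K ∩ orth Finset.univ := by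
      ext p
      have e : negOn (B \ M) (negOn (B ∩ M) p) = negOn B p := by
        funext i
        simp only [negOn, Finset.mem_inter, Finset.mem_sdiff]
        by_cases h1 : i ∈ B <;> by_cases h2 : i ∈ M <;> simp [h1, h2]
      simp [hSdef, e, orth, ← huniv, and_assoc, negOn, ht, hu]
    rw [measureReal_def, measureReal_def, ← e0, ← e1, flip_eq hSm hS Finset.inter_subset_right]
  have hall : negOn Finset.univ ⁻¹' K = K := by
    have e : ∀ p : Fin n → ℝ, negOn Finset.univ p = -p := fun p => by funext i; simp [negOn]
    ext p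
    simp only [mem_preimage, e]
    exact ⟨fun h => by simpa using hneg _ h, fun h => hneg p h⟩
  have hflip : 2 ^ n * volume.real (negOn {t} ⁻¹' K ∩ orth Finset.univ) = volume.real K := by
    have hs := split_turns_extra hKm hneg hM hu
    have e1 : volume.real (negOn {t} ⁻¹' K ∩ orth Finset.univ)
        = volume.real (K ∩ orth (insert u M) ∩ {p | p t ≤ 0}) := by
      rw [← negOn_preimage_volume {t} ((hKm.inter (isClosed_orth _).measurableSet).inter
        (measurableSet_le (measurable_pi_apply t) measurable_const))]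
      congr 1
      ext p
      simp only [mem_inter_iff, mem_preimage, orth, Set.mem_ofPred_eq, negOn, ← huniv,
        Finset.mem_insert, Finset.mem_singleton, forall_eq_or_imp, if_neg htu.symm, if_true,
        Left.neg_nonpos_iff]
      refine ⟨fun ⟨a, b, c, d⟩ => ⟨⟨a, c, fun i hi => ?_⟩, b⟩,
        fun ⟨⟨a, c, d⟩, b⟩ => ⟨a, b, c, fun i hi => ?_⟩⟩
      · rw [if_neg fun h : i = t => ht (h ▸ hi)]; exact d i hi
      · have := d i hi; rwa [if_neg fun h : i = t => ht (h ▸ hi)] at this
    have e2 : volume.real (K ∩ orth (insert u M))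
        = volume.real (K ∩ orth Finset.univ) + volume.real (K ∩ orth (insert u M) ∩ {p | p t ≤ 0}) := by
      have hfin : ∀ {S : Set (Fin n → ℝ)}, S ⊆ K → volume S ≠ ⊤ := fun h =>
        ne_top_of_le_ne_top hK.measure_lt_top.ne (measure_mono h)
      have eu : K ∩ orth Finset.univ = K ∩ orth (insert u M) ∩ {p | 0 ≤ p t} := by
        ext p; simp [orth, ← huniv, and_comm, and_left_comm]
      rw [eu, ← measureReal_union_add_inter₀
        (((hKm.inter (isClosed_orth _).measurableSet).inter
          (measurableSet_le (measurable_pi_apply t) measurable_const)).nullMeasurableSet)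
        (hfin (inter_subset_left.trans inter_subset_left))
        (hfin (inter_subset_left.trans inter_subset_left))]
      have z : volume.real ((K ∩ orth (insert u M) ∩ {p | 0 ≤ p t}) ∩
          (K ∩ orth (insert u M) ∩ {p | p t ≤ 0})) = 0 := by
        rw [measureReal_def, measure_mono_null (t := {p : Fin n → ℝ | p t = 0}) (fun p hp =>
          le_antisymm hp.2.2 hp.1.2) (volume_coord_zero t), ENNReal.toReal_zero]
      rw [z, add_zero, ← inter_union_distrib_left, show {p : Fin n → ℝ | 0 ≤ p t} ∪ {p | p t ≤ 0}
        = univ from eq_univ_of_forall fun p => le_total 0 (p t), inter_univ]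
    have hcard : n = (insert u M).card + 1 := by
      have := congrArg Finset.card huniv
      rw [Finset.card_insert_of_notMem (by simp [htu, ht]), Finset.card_univ,
        Fintype.card_fin] at this
      exact this.symm
    rw [Finset.card_insert_of_notMem hu] at hcard
    rw [e1]
    rw [e2] at hs
    have e3 : (2 : ℝ) ^ n = 2 * 2 ^ (M.card + 1) := by
      rw [show (2 : ℝ) ^ n = 2 ^ (M.card + 1 + 1) from congrArg _ hcard, pow_succ, mul_comm]
    rw [e3] at hV ⊢
    linarith
  have hdec : A \ M = ∅ ∨ A \ M = {t} ∨ A \ M = {u} ∨ A \ M = {t, u} := by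
    have hsub : A \ M ⊆ {t, u} := fun i hi => by
      have := (huniv ▸ Finset.mem_univ i : i ∈ insert t (insert u M))
      simp only [Finset.mem_insert] at this
      simp only [Finset.mem_sdiff] at hi
      simp only [Finset.mem_insert, Finset.mem_singleton]
      tauto
    rcases em (t ∈ A \ M) with h1 | h1 <;> rcases em (u ∈ A \ M) with h2 | h2
    · exact Or.inr (Or.inr (Or.inr (Finset.Subset.antisymm hsub
        (by simp [Finset.insert_subset_iff, h1, h2]))))
    · refine Or.inr (Or.inl (Finset.Subset.antisymm (fun i hi => ?_) (by simpa using h1)))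
      have := hsub hi; simp only [Finset.mem_insert, Finset.mem_singleton] at this ⊢
      rcases this with rfl | rfl
      · rfl
      · exact absurd hi h2
    · refine Or.inr (Or.inr (Or.inl (Finset.Subset.antisymm (fun i hi => ?_) (by simpa using h2))))
      have := hsub hi; simp only [Finset.mem_insert, Finset.mem_singleton] at this ⊢
      rcases this with rfl | rfl
      · exact absurd hi h1
      · rfl
    · refine Or.inl (Finset.eq_empty_of_forall_notMem fun i hi => ?_)
      have := hsub hi; simp only [Finset.mem_insert, Finset.mem_singleton] at this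
      rcases this with rfl | rfl <;> contradiction
  have hcompl : ∀ B : Finset (Fin n), negOn Bᶜ ⁻¹' K = negOn B ⁻¹' K := fun B => by
    ext p
    have e : negOn Bᶜ p = -negOn B p := by
      funext i; by_cases hi : i ∈ B <;> simp [negOn, hi]
    simp only [mem_preimage, e]
    exact ⟨fun h => by simpa using hneg _ h, fun h => hneg _ h⟩
  rw [hred A]
  rcases hdec with h | h | h | h <;> rw [h]
  · simpa [show negOn (∅ : Finset (Fin n)) = id from funext fun p => funext fun i => by
      simp [negOn]] using hV
  · exact hflip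
  · rw [← hcompl, hred, show ({u} : Finset (Fin n))ᶜ \ M = {t} from ?_]
    · exact hflip
    · ext i
      have := (huniv ▸ Finset.mem_univ i : i ∈ insert t (insert u M))
      simp only [Finset.mem_insert] at this
      simp only [Finset.mem_sdiff, Finset.mem_compl, Finset.mem_singleton]
      constructor
      · rintro ⟨h1, h2⟩; tauto
      · rintro rfl; exact ⟨htu, ht⟩
  · rw [← hcompl, hred, show ({t, u} : Finset (Fin n))ᶜ \ M = ∅ from ?_]
    · simpa [show negOn (∅ : Finset (Fin n)) = id from funext fun p => funext fun i => by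
        simp [negOn]] using hV
    · ext i
      have := (huniv ▸ Finset.mem_univ i : i ∈ insert t (insert u M))
      simp only [Finset.mem_insert] at this
      simp only [Finset.mem_sdiff, Finset.mem_compl, Finset.mem_insert, Finset.mem_singleton,
        Finset.notMem_empty, iff_false]
      tauto

/-- Equal shares of the body and of its mirror sections give the balance. -/
theorem balanced_of_share {K : Set (Fin (n + 1) → ℝ)} (hK : Good K)
    {M : Finset (Fin (n + 1))} (hM : Turned M K) {t u : Fin (n + 1)} (htu : t ≠ u)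
    (ht : t ∉ M) (hu : u ∉ M) (huniv : insert t (insert u M) = Finset.univ)
    (hV : 2 ^ (n + 1) * volume.real (K ∩ orth Finset.univ) = volume.real K)
    (hS : ∀ i ∈ M, 2 ^ n * volume.real (sec i (K ∩ orth Finset.univ)) = volume.real (sec i K)) :
    Balanced K := by
  intro x hx
  classical
  set A := Finset.univ.filter fun i => x i < 0 with hA
  set K' := negOn A ⁻¹' K with hK'
  have hx' : negOn A x ∈ K' ∩ orth Finset.univ := by
    refine ⟨by simpa [hK', negOn_negOn] using hx, fun i _ => ?_⟩
    by_cases h : x i < 0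
    · simpa [negOn, hA, h] using h.le
    · simpa [negOn, hA, h] using not_lt.1 h
  have hc : IsCompact (K' ∩ orth Finset.univ) := by
    refine IsCompact.inter_right ?_ (isClosed_orth _)
    have e : K' = negOn A '' K := by
      ext p
      exact ⟨fun hp => ⟨_, hp, negOn_negOn A p⟩, by rintro ⟨q, hq, rfl⟩; simpa [hK', negOn_negOn]⟩
    rw [e]
    exact hK.compact.image (continuous_pi fun i => by simp only [negOn]; split_ifs <;> fun_prop)
  have hcv : Convex ℝ (K' ∩ orth Finset.univ) := by
    refine Convex.inter (fun p hp q hq a b ha hb hab => ?_) (convex_orth _)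
    show negOn A (a • p + b • q) ∈ K
    convert hK.convex hp hq ha hb hab using 1
    funext i
    simp only [negOn, Pi.add_apply, Pi.smul_apply, smul_eq_mul]
    split_ifs <;> ring
  have hp := pyramid hc hcv Finset.univ (fun p hp i hi => hp.2 i hi) hx'
  have hsecv : ∀ i, 2 ^ n * volume.real (sec i (K' ∩ orth Finset.univ)) = volume.real (sec i K) := by
    intro i
    have hg := hK.sec i
    have hbu : below i (Finset.univ : Finset (Fin (n + 1))) = Finset.univ := by
      ext j; simp [below]
    rw [sec_orth, hbu, hK', sec_negOn]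
    by_cases hi : i ∈ M
    · obtain ⟨t', rfl⟩ := Fin.exists_succAbove_eq (show t ≠ i from fun h => ht (h ▸ hi))
      obtain ⟨u', rfl⟩ := Fin.exists_succAbove_eq (show u ≠ i from fun h => hu (h ▸ hi))
      refine orth_share hg.compact hg.neg (hM.sec i) (t := t') (u := u')
        (fun h => htu (by rw [h])) (by simpa [below] using ht) (by simpa [below] using hu) ?_ ?_ _
      · ext j
        have := (huniv ▸ Finset.mem_univ (i.succAbove j) :
          i.succAbove j ∈ insert (i.succAbove t') (insert (i.succAbove u') M))
        simpa [below, Fin.succAbove_right_inj] using this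
      · rw [← hS i hi, sec_orth, hbu]
    · -- one free coordinate is left
      obtain ⟨a, ha, hall⟩ : ∃ a : Fin n, a ∉ below i M ∧
          insert a (below i M) = Finset.univ := by
        have hiu : i = t ∨ i = u := by
          have := (huniv ▸ Finset.mem_univ i : i ∈ insert t (insert u M))
          simp only [Finset.mem_insert] at this
          tauto
        rcases hiu with rfl | rfl
        · obtain ⟨a, rfl⟩ := Fin.exists_succAbove_eq htu.symm
          refine ⟨a, by simpa [below] using hu, Finset.eq_univ_of_forall fun j => ?_⟩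
          have := (huniv ▸ Finset.mem_univ (i.succAbove j) :
            i.succAbove j ∈ insert i (insert (i.succAbove a) M))
          simpa [below, Fin.succAbove_right_inj, Fin.succAbove_ne] using this
        · obtain ⟨a, rfl⟩ := Fin.exists_succAbove_eq htu
          refine ⟨a, by simpa [below] using ht, Finset.eq_univ_of_forall fun j => ?_⟩
          have := (huniv ▸ Finset.mem_univ (i.succAbove j) :
            i.succAbove j ∈ insert (i.succAbove a) (insert i M))
          simpa [below, Fin.succAbove_right_inj, Fin.succAbove_ne] using this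
      have hcard : (below i M).card + 1 = n := by
        have := congrArg Finset.card hall
        rwa [Finset.card_insert_of_notMem ha, Finset.card_univ, Fintype.card_fin] at this
      have hgm := hg.compact.isClosed.measurableSet
      -- flip the free coordinate first, then the turned ones
      set B := below i A \ below i M
      have hB : ∀ j ∈ B, j ∉ below i M := fun j hj => (Finset.mem_sdiff.1 hj).2
      set S := negOn B ⁻¹' sec i K ∩ {p | 0 ≤ p a}
      have hT : Turned (below i M) (negOn B ⁻¹' sec i K) := (hM.sec i).preimage_negOn hB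
      have hS' : Turned (below i M) S := hT.inter fun j hj k hk p hp => by
        show 0 ≤ qt j k p a
        rwa [qt_fix (fun e : a = j => ha (e ▸ hj)) (fun e : a = k => ha (e ▸ hk))]
      have hSm : MeasurableSet S := (hgm.preimage (negOn_preserving _).measurable).inter
        (measurableSet_le measurable_const (measurable_pi_apply a))
      have hnegB : ∀ p ∈ negOn B ⁻¹' sec i K, -p ∈ negOn B ⁻¹' sec i K := by
        intro p hp
        show negOn B (-p) ∈ sec i K
        convert hg.neg _ hp using 1
        funext j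
        simp only [negOn, Pi.neg_apply]
        split_ifs <;> rfl
      have hs := split_turns_extra (hgm.preimage (negOn_preserving _).measurable) hnegB hT ha
      rw [negOn_preimage_volume _ hgm, hall, hcard] at hs
      have e0 : S ∩ orth (below i M) = negOn B ⁻¹' sec i K ∩ orth Finset.univ := by
        ext p; simp [S, orth, ← hall, and_assoc]
      have e1 : negOn (below i A ∩ below i M) ⁻¹' S ∩ orth (below i M)
          = negOn (below i A) ⁻¹' sec i K ∩ orth Finset.univ := by
        ext p
        have e : negOn B (negOn (below i A ∩ below i M) p) = negOn (below i A) p := by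
          funext j
          simp only [B, negOn, Finset.mem_inter, Finset.mem_sdiff]
          by_cases h1 : j ∈ below i A <;> by_cases h2 : j ∈ below i M <;> simp [h1, h2]
        simp [S, e, orth, ← hall, and_assoc, negOn, ha]
      rw [measureReal_def, ← e1, flip_eq hSm hS' Finset.inter_subset_right, e0, ← measureReal_def]
      exact hs.symm
  have hshare := orth_share hK.compact hK.neg hM htu ht hu huniv hV A
  calc 2 * ∑ i, |x i| * volume.real (sec i K)
      = 2 ^ (n + 1) * ∑ i, negOn A x i * volume.real (sec i (K' ∩ orth Finset.univ)) := by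
        rw [Finset.mul_sum, Finset.mul_sum]
        refine Finset.sum_congr rfl fun i _ => ?_
        have e : negOn A x i = |x i| := by
          by_cases h : x i < 0
          · simp [negOn, hA, h, abs_of_neg h]
          · simp [negOn, hA, h, abs_of_nonneg (not_lt.1 h)]
        rw [e, ← hsecv i, pow_succ]
        ring
    _ ≤ 2 ^ (n + 1) * ((n + 1) * volume.real (K' ∩ orth Finset.univ)) :=
        mul_le_mul_of_nonneg_left hp (by positivity)
    _ = (n + 1) * volume.real K := by rw [← hshare]; ring

/-! ### The two lines -/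

/-- The signed height of `p` over the line of angle `θ`. -/
noncomputable def ht' (t u : Fin n) (θ : ℝ) (p : Fin n → ℝ) : ℝ :=
  Real.cos θ * p u - Real.sin θ * p t

/-- The part of `K` between two lines, in the positive part of `M`. -/
def secSet (t u : Fin n) (M : Finset (Fin n)) (K : Set (Fin n → ℝ)) (α γ : ℝ) :
    Set (Fin n → ℝ) :=
  K ∩ orth M ∩ {p | 0 ≤ ht' t u α p ∧ ht' t u γ p ≤ 0}

/-- Its volume. -/
noncomputable def quad (t u : Fin n) (M : Finset (Fin n)) (K : Set (Fin n → ℝ)) (α γ : ℝ) : ℝ :=
  volume.real (secSet t u M K α γ)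

variable {t u : Fin n} {M : Finset (Fin n)} {K : Set (Fin n → ℝ)}

lemma continuous_ht' (t u : Fin n) (θ : ℝ) : Continuous (ht' t u θ) := by
  unfold ht'; fun_prop

lemma null_ht' (htu : t ≠ u) (θ : ℝ) : volume {p : Fin n → ℝ | ht' t u θ p = 0} = 0 := by
  have hrot := rot_preserving htu θ
  have e : {p : Fin n → ℝ | ht' t u θ p = 0} = rot t u θ ⁻¹' {f | f u = 0} := by
    ext p
    simp [ht', rot_apply, htu.symm, add_comm, neg_mul, ← sub_eq_add_neg]
  rw [e, hrot.measure_preimage (measurableSet_eq_fun (measurable_pi_apply u)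
    measurable_const).nullMeasurableSet]
  exact volume_coord_zero u

lemma measurableSet_secSet (hK : IsCompact K) (α γ : ℝ) : MeasurableSet (secSet t u M K α γ) :=
  (hK.isClosed.measurableSet.inter (isClosed_orth M).measurableSet).inter
    ((measurableSet_le measurable_const (continuous_ht' t u α).measurable).inter
      (measurableSet_le (continuous_ht' t u γ).measurable measurable_const))

lemma continuous_quad (hK : IsCompact K) (htu : t ≠ u) :
    Continuous fun q : ℝ × ℝ => quad t u M K q.1 q.2 := by
  classical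
  refine continuous_iff_continuousAt.2 fun q₀ => ?_
  have e : ∀ q : ℝ × ℝ, quad t u M K q.1 q.2 =
      ∫ p in K, (secSet t u M K q.1 q.2).indicator (fun _ => (1 : ℝ)) p := fun q => by
    rw [setIntegral_indicator (measurableSet_secSet hK _ _), setIntegral_const, smul_eq_mul,
      mul_one, inter_eq_self_of_subset_right
      (show secSet t u M K q.1 q.2 ⊆ K from inter_subset_left.trans inter_subset_left)]
    rfl
  simp only [e]
  refine continuousAt_of_dominated (Eventually.of_forall fun q =>
    ((stronglyMeasurable_const).indicator (measurableSet_secSet hK _ _)).aestronglyMeasurable)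
    (Eventually.of_forall fun q => ae_of_all _ fun p => ?_)
    (integrableOn_const (C := (1 : ℝ)) hK.measure_lt_top.ne) ?_
  · rw [Real.norm_eq_abs, Set.indicator_apply]; split_ifs <;> simp
  · have h1 := measure_eq_zero_iff_ae_notMem.1 (null_ht' htu q₀.1)
    have h2 := measure_eq_zero_iff_ae_notMem.1 (null_ht' htu q₀.2)
    filter_upwards [ae_restrict_of_ae h1, ae_restrict_of_ae h2] with p hp1 hp2
    refine continuousAt_const.congr (f := fun _ : ℝ × ℝ =>
      (secSet t u M K q₀.1 q₀.2).indicator (fun _ => (1 : ℝ)) p) ?_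
    have hc1 : ContinuousAt (fun q : ℝ × ℝ => ht' t u q.1 p) q₀ := by
      unfold ht'; fun_prop
    have hc2 : ContinuousAt (fun q : ℝ × ℝ => ht' t u q.2 p) q₀ := by
      unfold ht'; fun_prop
    have s1 : ∀ᶠ q in 𝓝 q₀, (0 ≤ ht' t u q.1 p ↔ 0 ≤ ht' t u q₀.1 p) := by
      rcases lt_or_gt_of_ne (show ht' t u q₀.1 p ≠ 0 from hp1) with h | h
      · filter_upwards [hc1.eventually_lt_const h] with q hq using ⟨fun h' => absurd h' (not_le.2 hq),
          fun h' => absurd h' (not_le.2 h)⟩
      · filter_upwards [hc1.eventually_const_lt h] with q hq using ⟨fun _ => h.le, fun _ => hq.le⟩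
    have s2 : ∀ᶠ q in 𝓝 q₀, (ht' t u q.2 p ≤ 0 ↔ ht' t u q₀.2 p ≤ 0) := by
      rcases lt_or_gt_of_ne (show ht' t u q₀.2 p ≠ 0 from hp2) with h | h
      · filter_upwards [hc2.eventually_lt_const h] with q hq using ⟨fun _ => h.le, fun _ => hq.le⟩
      · filter_upwards [hc2.eventually_const_lt h] with q hq using ⟨fun h' => absurd h' (not_le.2 hq),
          fun h' => absurd h' (not_le.2 h)⟩
    filter_upwards [s1, s2] with q e1 e2
    by_cases hp : p ∈ secSet t u M K q₀.1 q₀.2
    · rw [indicator_of_mem hp, indicator_of_mem]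
      exact ⟨hp.1, e1.2 hp.2.1, e2.2 hp.2.2⟩
    · rw [indicator_of_notMem hp, indicator_of_notMem]
      exact fun h => hp ⟨h.1, e1.1 h.2.1, e2.1 h.2.2⟩

lemma quad_self (htu : t ≠ u) (α : ℝ) : quad t u M K α α = 0 := by
  rw [quad, measureReal_def, measure_mono_null
    (fun p hp => show ht' t u α p = 0 from le_antisymm hp.2.2 hp.2.1) (null_ht' htu α),
    ENNReal.toReal_zero]

lemma ht'_add_pi (t u : Fin n) (α : ℝ) (p : Fin n → ℝ) :
    ht' t u (α + Real.pi) p = -ht' t u α p := by
  simp [ht']; ring

/-- Half of the free plane. -/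
noncomputable def halfShare (M : Finset (Fin n)) (K : Set (Fin n → ℝ)) : ℝ :=
  volume.real K / 2 ^ (M.card + 1)

lemma half_eq (hK : Good K) (hM : Turned M K) (htu : t ≠ u) (ht : t ∉ M) (hu : u ∉ M) (α : ℝ) :
    volume.real (K ∩ orth M ∩ {p | 0 ≤ ht' t u α p}) = halfShare M K := by
  have hKm := hK.compact.isClosed.measurableSet
  set S := K ∩ {p | 0 ≤ ht' t u α p} with hSdef
  have hS : Turned M S := hM.inter fun i hi k hk p hp => by
    show 0 ≤ ht' t u α (qt i k p)
    rwa [ht', qt_fix (fun e : u = i => hu (e ▸ hi)) (fun e : u = k => hu (e ▸ hk)),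
      qt_fix (fun e : t = i => ht (e ▸ hi)) (fun e : t = k => ht (e ▸ hk))]
  have hP : MeasurableSet {p : Fin n → ℝ | 0 ≤ ht' t u α p} :=
    measurableSet_le measurable_const (continuous_ht' t u α).measurable
  have h2 := split_turns (hKm.inter hP) hS
  have h1 : volume K = 2 * volume S := by
    have hz := null_ht' htu α
    have hn : negOn Finset.univ ⁻¹' S = K ∩ {p | ht' t u α p ≤ 0} := by
      have e : ∀ p : Fin n → ℝ, negOn Finset.univ p = -p := fun p => by funext i; simp [negOn]
      ext p
      simp only [hSdef, mem_preimage, mem_inter_iff, Set.mem_ofPred_eq, e, ht', Pi.neg_apply]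
      exact ⟨fun ⟨a, b⟩ => ⟨neg_neg p ▸ hK.neg _ a, by linarith⟩,
        fun ⟨a, b⟩ => ⟨hK.neg p a, by linarith⟩⟩
    have h3 : volume (K ∩ {p | ht' t u α p ≤ 0}) = volume S := by
      rw [← hn, (negOn_preserving _).measure_preimage (hKm.inter hP).nullMeasurableSet]
    rw [two_mul]
    nth_rw 2 [← h3]
    rw [← measure_union_add_inter _ (hKm.inter (measurableSet_le
        (continuous_ht' t u α).measurable measurable_const)),
      measure_mono_null (s := S ∩ (K ∩ {p | ht' t u α p ≤ 0})) (t := {p | ht' t u α p = 0})
        (fun p hp => le_antisymm hp.2.2 hp.1.2) hz,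
      add_zero, hSdef, ← inter_union_distrib_left,
      show {p : Fin n → ℝ | 0 ≤ ht' t u α p} ∪ {p | ht' t u α p ≤ 0} = univ from
        eq_univ_of_forall fun p => le_total 0 (ht' t u α p), inter_univ]
  rw [halfShare, eq_div_iff (by positivity), inter_right_comm, measureReal_def, measureReal_def,
    h1, h2, ENNReal.toReal_mul, ENNReal.toReal_mul, ENNReal.toReal_pow, ENNReal.toReal_ofNat]
  ring

lemma quad_pi (hK : Good K) (hM : Turned M K) (htu : t ≠ u) (ht : t ∉ M) (hu : u ∉ M) (α : ℝ) :
    quad t u M K α (α + Real.pi) = halfShare M K := by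
  rw [quad, ← half_eq hK hM htu ht hu α]
  congr 1
  ext p
  simp [secSet, ht'_add_pi]

lemma sector_mono {α γ γ' : ℝ} (h1 : 0 < γ - α) (h2 : γ ≤ γ') (h3 : γ' - α ≤ Real.pi)
    {p : Fin n → ℝ} (ha : 0 ≤ ht' t u α p) (hg : ht' t u γ p ≤ 0) : ht' t u γ' p ≤ 0 := by
  rcases h2.eq_or_lt with h | h2'
  · rw [← h]; exact hg
  have key : Real.sin (γ - α) * ht' t u γ' p =
      Real.sin (γ' - α) * ht' t u γ p - Real.sin (γ' - γ) * ht' t u α p := by
    simp only [ht', Real.sin_sub]
    ring
  have s1 : 0 < Real.sin (γ - α) := Real.sin_pos_of_pos_of_lt_pi h1 (by linarith)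
  have s2 : 0 ≤ Real.sin (γ' - α) := Real.sin_nonneg_of_nonneg_of_le_pi (by linarith) h3
  have s3 : 0 ≤ Real.sin (γ' - γ) := Real.sin_nonneg_of_nonneg_of_le_pi (by linarith) (by linarith)
  have := mul_nonpos_of_nonneg_of_nonpos s2 hg
  have := mul_nonneg s3 ha
  by_contra hc
  have := mul_pos s1 (not_le.1 hc)
  linarith

lemma quad_strict (hK : Good K) (htu : t ≠ u) (ht : t ∉ M) (hu : u ∉ M) {α γ γ' : ℝ}
    (h1 : α < γ) (h2 : γ < γ') (h3 : γ' < α + Real.pi) :
    quad t u M K α γ < quad t u M K α γ' := by
  set φ := (γ + γ') / 2 with hφ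
  set d : Fin n → ℝ := fun i => if i = t then Real.cos φ else if i = u then Real.sin φ else 1
    with hd
  have hh : ∀ θ, ht' t u θ d = Real.sin (φ - θ) := fun θ => by
    simp [ht', hd, htu.symm, Real.sin_sub]; ring
  obtain ⟨c, hcK, hc⟩ : ∃ c : ℝ, c • d ∈ interior K ∧ 0 < c := by
    have hlim : Tendsto (fun c : ℝ => c • d) (𝓝 0) (𝓝 0) := by
      have hcd : Continuous fun c : ℝ => c • d := by fun_prop
      simpa using hcd.tendsto 0
    exact ((hlim.eventually (interior_mem_nhds.2 hK.mem_nhds)).filter_mono nhdsWithin_le_nhds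
      |>.and (self_mem_nhdsWithin : ∀ᶠ c in 𝓝[>] (0 : ℝ), 0 < c)).exists
  set O := interior K ∩ (⋂ i ∈ M, {p | 0 < p i}) ∩
    {p | 0 < ht' t u α p ∧ 0 < ht' t u γ p ∧ ht' t u γ' p < 0} with hO
  have hOo : IsOpen O := (isOpen_interior.inter (isOpen_biInter_finset fun i _ =>
    isOpen_lt continuous_const (continuous_apply i))).inter
    ((isOpen_lt continuous_const (continuous_ht' t u α)).inter
      ((isOpen_lt continuous_const (continuous_ht' t u γ)).inter
        (isOpen_lt (continuous_ht' t u γ') continuous_const)))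
  have hsm : ∀ θ, ht' t u θ (c • d) = c * Real.sin (φ - θ) := fun θ => by
    rw [← hh θ]; simp [ht']; ring
  have hOne : (c • d) ∈ O := by
    refine ⟨⟨hcK, Set.mem_iInter₂.2 fun i hi => ?_⟩, ?_, ?_, ?_⟩
    · show 0 < (c • d) i
      have : d i = 1 := by
        simp only [hd]; rw [if_neg fun h : i = t => ht (h ▸ hi), if_neg fun h : i = u => hu (h ▸ hi)]
      simpa [this] using hc
    all_goals rw [hsm]
    · exact mul_pos hc (Real.sin_pos_of_pos_of_lt_pi (by linarith) (by linarith))
    · exact mul_pos hc (Real.sin_pos_of_pos_of_lt_pi (by linarith) (by linarith))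
    · exact mul_neg_of_pos_of_neg hc
        (Real.sin_neg_of_neg_of_neg_pi_lt (by linarith) (by linarith))
  have hsub : secSet t u M K α γ ⊆ secSet t u M K α γ' := fun p hp =>
    ⟨hp.1, hp.2.1, sector_mono (by linarith) h2.le (by linarith) hp.2.1 hp.2.2⟩
  have hOsub : O ⊆ secSet t u M K α γ' := fun p hp =>
    ⟨⟨interior_subset hp.1.1, fun i hi => (show 0 < p i from Set.mem_iInter₂.1 hp.1.2 i hi).le⟩,
      hp.2.1.le, hp.2.2.2.le⟩
  have hdisj : Disjoint (secSet t u M K α γ) O :=
    Set.disjoint_left.2 fun p hp hq => absurd hp.2.2 (not_le.2 hq.2.2.1)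
  have hfin : ∀ {S : Set (Fin n → ℝ)}, S ⊆ K → volume S ≠ ⊤ := fun h =>
    ne_top_of_le_ne_top hK.compact.measure_lt_top.ne (measure_mono h)
  have hOpos : 0 < volume.real O := ENNReal.toReal_pos (hOo.measure_pos volume ⟨_, hOne⟩).ne'
    (hfin (inter_subset_left.trans (inter_subset_left.trans interior_subset)))
  have h := measureReal_mono (μ := volume) (union_subset hsub hOsub)
    (hfin (inter_subset_left.trans inter_subset_left))
  rw [measureReal_union hdisj hOo.measurableSet (hfin (inter_subset_left.trans inter_subset_left))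
    (hfin (inter_subset_left.trans (inter_subset_left.trans interior_subset)))] at h
  simp only [quad]
  linarith

lemma quad_compl (hK : Good K) (hM : Turned M K) (htu : t ≠ u) (ht : t ∉ M) (hu : u ∉ M)
    {α γ : ℝ} (h1 : α < γ) (h2 : γ < α + Real.pi) :
    quad t u M K α γ + quad t u M K γ (α + Real.pi) = halfShare M K := by
  rw [quad, quad, ← half_eq hK hM htu ht hu α]
  have hfin : ∀ a b, volume (secSet t u M K a b) ≠ ⊤ := fun a b =>
    ne_top_of_le_ne_top hK.compact.measure_lt_top.ne
      (measure_mono (inter_subset_left.trans inter_subset_left))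
  rw [← measureReal_union_add_inter₀ (measurableSet_secSet hK.compact _ _).nullMeasurableSet
    (hfin _ _) (hfin _ _)]
  have z : volume.real (secSet t u M K α γ ∩ secSet t u M K γ (α + Real.pi)) = 0 := by
    rw [measureReal_def, measure_mono_null (fun p hp => show ht' t u γ p = 0 from
      le_antisymm hp.1.2.2 hp.2.2.1) (null_ht' htu γ), ENNReal.toReal_zero]
  rw [z, add_zero]
  congr 1
  ext p
  constructor
  · rintro (⟨a, b, -⟩ | ⟨a, -, c⟩)
    · exact ⟨a, b⟩
    · exact ⟨a, by simpa [ht'_add_pi] using c⟩
  · rintro ⟨a, b⟩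
    rcases le_total (ht' t u γ p) 0 with h | h
    · exact Or.inl ⟨a, b, h⟩
    · exact Or.inr ⟨a, h, by simpa [ht'_add_pi] using b⟩

/-- For every line there is one further line halving the half plane; it depends continuously. -/
lemma exists_second_line (hK : Good K) (hM : Turned M K) (htu : t ≠ u) (ht : t ∉ M)
    (hu : u ∉ M) : ∃ g : ℝ → ℝ, Continuous g ∧ ∀ α, α < g α ∧ g α < α + Real.pi ∧
      quad t u M K α (g α) = halfShare M K / 2 ∧
      ∀ γ, α < γ → γ < α + Real.pi → quad t u M K α γ = halfShare M K / 2 → γ = g α := by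
  have hpos : 0 < halfShare M K := by
    have : 0 < volume.real K := ENNReal.toReal_pos
      (Measure.measure_pos_of_mem_nhds volume hK.mem_nhds).ne' hK.compact.measure_lt_top.ne
    unfold halfShare; positivity
  have hc := continuous_quad (M := M) hK.compact htu
  have hex : ∀ α, ∃ γ, α < γ ∧ γ < α + Real.pi ∧ quad t u M K α γ = halfShare M K / 2 := by
    intro α
    obtain ⟨γ, hγ, he⟩ := intermediate_value_Ioo (le_add_of_nonneg_right Real.pi_pos.le)
      (hc.comp (Continuous.prodMk_right α)).continuousOn
      (show halfShare M K / 2 ∈ Ioo (quad t u M K α α) (quad t u M K α (α + Real.pi)) by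
        rw [quad_self htu, quad_pi hK hM htu ht hu]; exact ⟨by linarith, by linarith⟩)
    exact ⟨γ, hγ.1, hγ.2, he⟩
  choose g g1 g2 g3 using hex
  have huniq : ∀ α γ, α < γ → γ < α + Real.pi → quad t u M K α γ = halfShare M K / 2 →
      γ = g α := by
    intro α γ a b c
    rcases lt_trichotomy γ (g α) with h | h | h
    · have := quad_strict (M := M) hK htu ht hu a h (g2 α); linarith [g3 α]
    · exact h
    · have := quad_strict (M := M) hK htu ht hu (g1 α) h b; linarith [g3 α]
  refine ⟨g, continuous_iff_continuousAt.2 fun α₀ => ?_, fun α => ⟨g1 α, g2 α, g3 α, huniq α⟩⟩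
  rw [ContinuousAt, Metric.tendsto_nhds]
  intro ε hε
  set e := min ε (min (g α₀ - α₀) (α₀ + Real.pi - g α₀)) / 2 with he
  have hε2 : min ε (min (g α₀ - α₀) (α₀ + Real.pi - g α₀)) > 0 :=
    lt_min hε (lt_min (by linarith [g1 α₀]) (by linarith [g2 α₀]))
  have he0 : 0 < e := by rw [he]; linarith
  have heε : e < ε := by rw [he]; linarith [min_le_left ε (min (g α₀ - α₀) (α₀ + Real.pi - g α₀))]
  have hel : e < g α₀ - α₀ := by
    rw [he]; linarith [min_le_right ε (min (g α₀ - α₀) (α₀ + Real.pi - g α₀)),
      min_le_left (g α₀ - α₀) (α₀ + Real.pi - g α₀)]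
  have her : e < α₀ + Real.pi - g α₀ := by
    rw [he]; linarith [min_le_right ε (min (g α₀ - α₀) (α₀ + Real.pi - g α₀)),
      min_le_right (g α₀ - α₀) (α₀ + Real.pi - g α₀)]
  have lo := quad_strict (M := M) hK htu ht hu (α := α₀) (γ := g α₀ - e) (γ' := g α₀)
    (by linarith) (by linarith) (g2 α₀)
  have hi := quad_strict (M := M) hK htu ht hu (α := α₀) (γ := g α₀) (γ' := g α₀ + e)
    (g1 α₀) (by linarith) (by linarith)
  rw [g3 α₀] at lo hi
  have clo : ContinuousAt (fun α => quad t u M K α (g α₀ - e)) α₀ :=
    (hc.comp (continuous_id.prodMk continuous_const)).continuousAt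
  have chi : ContinuousAt (fun α => quad t u M K α (g α₀ + e)) α₀ :=
    (hc.comp (continuous_id.prodMk continuous_const)).continuousAt
  filter_upwards [clo.eventually_lt_const lo, chi.eventually_const_lt hi,
    eventually_lt_nhds (show α₀ < g α₀ - e by linarith),
    eventually_gt_nhds (show g α₀ + e - Real.pi < α₀ by linarith)] with α a b c d
  obtain ⟨γ, hγ, hval⟩ := intermediate_value_Ioo (show g α₀ - e ≤ g α₀ + e by linarith)
    (hc.comp (Continuous.prodMk_right α)).continuousOn
    (show halfShare M K / 2 ∈ Ioo (quad t u M K α (g α₀ - e)) (quad t u M K α (g α₀ + e))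
      from ⟨a, b⟩)
  rw [← huniq α γ (by linarith [hγ.1]) (by linarith [hγ.2]) hval, Real.dist_eq, abs_lt]
  constructor <;> linarith [hγ.1, hγ.2]

/-- Two lines halving the body and a section at the same time. -/
theorem exists_lines {m : ℕ} {S : Set (Fin m → ℝ)} {a b : Fin m} {N : Finset (Fin m)}
    (hK : Good K) (hM : Turned M K) (htu : t ≠ u) (ht : t ∉ M) (hu : u ∉ M)
    (hS : Good S) (hN : Turned N S) (hab : a ≠ b) (ha : a ∉ N) (hb : b ∉ N) :
    ∃ α γ, α < γ ∧ γ < α + Real.pi ∧ quad t u M K α γ = halfShare M K / 2 ∧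
      quad a b N S α γ = halfShare N S / 2 := by
  obtain ⟨g, hg, hgs⟩ := exists_second_line hK hM htu ht hu
  set D := fun α => quad a b N S α (g α) - halfShare N S / 2 with hD
  have hDc : Continuous D :=
    ((continuous_quad hS.compact hab).comp (continuous_id.prodMk hg)).sub continuous_const
  obtain ⟨h1, h2, h3, -⟩ := hgs 0
  have hback : g (g 0) = 0 + Real.pi := by
    obtain ⟨-, -, -, huq⟩ := hgs (g 0)
    refine (huq _ h2 (by linarith) ?_).symm
    have := quad_compl hK hM htu ht hu h1 h2
    linarith
  have hneg : D (g 0) = -D 0 := by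
    have := quad_compl hS hN hab ha hb h1 h2
    simp only [hD, hback]
    linarith
  have hzero : ∃ α, D α = 0 := by
    have hmem : (0 : ℝ) ∈ uIcc (D 0) (D (g 0)) := by
      rw [hneg, mem_uIcc]; rcases le_total 0 (D 0) with h | h
      · exact Or.inr ⟨by linarith, h⟩
      · exact Or.inl ⟨h, by linarith⟩
    obtain ⟨α, -, hα⟩ := intermediate_value_uIcc hDc.continuousOn hmem
    exact ⟨α, hα⟩
  obtain ⟨α, hα⟩ := hzero
  obtain ⟨a1, a2, a3, -⟩ := hgs α
  exact ⟨α, g α, a1, a2, a3, sub_eq_zero.1 hα⟩

end Vale.Agent.P248
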