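import Vale.Agent.P248.Equi

/-
P248: the induction for bodies with quarter turns in the planes of `n - 2` coordinates.
-/

namespace Vale.Agent.P248

open MeasureTheory Set
open scoped ENNReal

variable {n : ℕ}

/-- Invariance under the quarter turns in the planes of two coordinates in `M`. -/
def Pairs (M : Finset (Fin n)) (K : Set (Fin n → ℝ)) : Prop :=
  ∀ i ∈ M, ∀ k ∈ M, i ≠ k → ∀ p ∈ K, qt i k p ∈ K

lemma Pairs.sec {M : Finset (Fin (n + 1))} {K : Set (Fin (n + 1) → ℝ)} (h : Pairs M K)
    (i : Fin (n + 1)) : Pairs (below i M) (sec i K) := by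
  intro a ha b hb hab f hf
  rw [mem_sec, ← qt_insertNth]
  exact h _ (by simpa [below] using ha) _ (by simpa [below] using hb)
    (fun e => hab (Fin.succAbove_right_injective e)) _ hf

/-- Sections by exchanged hyperplanes have the same volume. -/
lemma volume_sec_perm {S : Set (Fin (n + 1) → ℝ)} (hS : MeasurableSet S)
    (σ : Equiv.Perm (Fin (n + 1))) (i : Fin (n + 1))
    (hinv : ∀ p, p (σ i) = 0 → (p ∈ S ↔ (fun k => p (σ k)) ∈ S)) :
    volume (sec (σ i) S) = volume (sec i S) := by
  have hne : ∀ k, σ (i.succAbove k) ≠ σ i := fun k h => Fin.succAbove_ne i k (σ.injective h)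
  choose π hπ using fun k => Fin.exists_succAbove_eq (hne k)
  have hπi : Function.Injective π := fun a b h => Fin.succAbove_right_injective
    (σ.injective (by rw [← hπ a, ← hπ b, h]))
  set e : Equiv.Perm (Fin n) := Equiv.ofBijective π (Finite.injective_iff_bijective.1 hπi)
  have hmp := volume_measurePreserving_piCongrLeft (fun _ : Fin n => ℝ) e.symm
  have happ : ∀ (g : Fin n → ℝ) k,
      MeasurableEquiv.piCongrLeft (fun _ : Fin n => ℝ) e.symm g k = g (π k) := by
    intro g k
    conv_lhs => rw [← e.symm_apply_apply k]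
    rw [MeasurableEquiv.piCongrLeft_apply_apply]
    rfl
  have hm : MeasurableSet (sec i S) := hS.preimage (continuous_insertNth' i 0).measurable
  rw [← hmp.measure_preimage hm.nullMeasurableSet]
  congr 1
  ext g
  simp only [mem_sec, mem_preimage]
  rw [hinv _ (by simp)]
  refine iff_of_eq (congrArg (· ∈ S) (Fin.eq_insertNth_iff.2 ⟨?_, ?_⟩))
  · simp
  · funext k
    simp [Fin.removeNth, ← hπ k, happ]

/-- The coordinates adapted to two lines of the free plane. -/
noncomputable def chg (t u : Fin n) (α γ : ℝ) : (Fin n → ℝ) →ₗ[ℝ] (Fin n → ℝ) where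
  toFun p i := if i = t then -ht' t u γ p else if i = u then ht' t u α p else p i
  map_add' p q := by funext i; simp only [ht', Pi.add_apply]; split_ifs <;> ring
  map_smul' c p := by
    funext i; simp only [ht', Pi.smul_apply, smul_eq_mul, RingHom.id_apply]; split_ifs <;> ring

variable {t u : Fin n} {α γ : ℝ}

lemma chg_apply (p : Fin n → ℝ) (i : Fin n) :
    chg t u α γ p i = if i = t then -ht' t u γ p else if i = u then ht' t u α p else p i := rfl

lemma chg_det_ne (htu : t ≠ u) (h1 : α < γ) (h2 : γ < α + Real.pi) :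
    LinearMap.det (chg t u α γ) ≠ 0 := by
  have hs : 0 < Real.sin (γ - α) := Real.sin_pos_of_pos_of_lt_pi (by linarith) (by linarith)
  intro h0
  obtain ⟨p, hp0, hp⟩ : ∃ p, p ≠ 0 ∧ chg t u α γ p = 0 := by
    obtain ⟨p, hp, hne⟩ := Submodule.exists_mem_ne_zero_of_ne_bot
      (LinearMap.bot_lt_ker_of_det_eq_zero h0).ne'
    exact ⟨p, hne, hp⟩
  apply hp0
  have a := congrFun hp t
  have b := congrFun hp u
  rw [chg_apply, if_pos rfl] at a
  rw [chg_apply, if_neg htu.symm, if_pos rfl] at b
  simp only [ht', Pi.zero_apply, neg_eq_zero] at a b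
  have hu : p u = 0 := by
    refine (mul_eq_zero.1 ?_).resolve_left hs.ne'
    rw [Real.sin_sub]
    linear_combination Real.sin γ * b - Real.sin α * a
  have ht : p t = 0 := by
    refine (mul_eq_zero.1 ?_).resolve_left hs.ne'
    rw [Real.sin_sub]
    linear_combination Real.cos γ * b - Real.cos α * a
  funext i
  by_cases hit : i = t
  · simp [hit, ht]
  by_cases hiu : i = u
  · simp [hiu, hu]
  have := congrFun hp i
  simpa [chg_apply, hit, hiu] using this

lemma Good.image {K : Set (Fin n → ℝ)} (hK : Good K) {T : (Fin n → ℝ) →ₗ[ℝ] (Fin n → ℝ)}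
    (hd : LinearMap.det T ≠ 0) : Good (T '' K) := by
  set E := T.equivOfDetNeZero hd
  refine ⟨hK.compact.image T.continuous_of_finiteDimensional, hK.convex.linear_image T, ?_, ?_⟩
  · rintro _ ⟨x, hx, rfl⟩; exact ⟨-x, hK.neg x hx, map_neg T x⟩
  · have := E.toContinuousLinearEquiv.toHomeomorph.isOpenMap.image_mem_nhds hK.mem_nhds
    have e : E.toContinuousLinearEquiv.toHomeomorph 0 = 0 := map_zero E
    rw [e] at this
    exact this

lemma real_image (T : (Fin n → ℝ) →ₗ[ℝ] (Fin n → ℝ)) (S : Set (Fin n → ℝ)) :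
    volume.real (T '' S) = |LinearMap.det T| * volume.real S := by
  simp [measureReal_def, Measure.addHaar_image_linearMap, abs_nonneg]

lemma product_image {K : Set (Fin n → ℝ)} {T : (Fin n → ℝ) →ₗ[ℝ] (Fin n → ℝ)}
    (hd : LinearMap.det T ≠ 0) :
    volume.real (T '' K) * volume.real (pol (T '' K)) = volume.real K * volume.real (pol K) := by
  set Tt : (Fin n → ℝ) →ₗ[ℝ] (Fin n → ℝ) :=
    Matrix.toLin' (LinearMap.toMatrix' T).transpose with hTt
  have hdet : LinearMap.det Tt = LinearMap.det T := by
    rw [hTt, LinearMap.det_toLin', Matrix.det_transpose, LinearMap.det_toMatrix']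
  have hpol : pol (T '' K) = Tt ⁻¹' pol K := by
    ext y
    simp only [pol, Set.mem_ofPred_eq, mem_preimage, forall_mem_image]
    refine forall₂_congr fun x _ => ?_
    rw [hTt, Matrix.toLin'_apply, Matrix.dotProduct_mulVec, Matrix.vecMul_transpose,
      LinearMap.toMatrix'_mulVec]
  rw [real_image, hpol, measureReal_def (s := Tt ⁻¹' _),
    Measure.addHaar_preimage_linearMap _ (hdet ▸ hd), hdet, ENNReal.toReal_mul,
    ENNReal.toReal_ofReal (abs_nonneg _), ← measureReal_def, abs_inv]
  field_simp

lemma chg_orth (htu : t ≠ u) {M : Finset (Fin n)} (ht : t ∉ M) (hu : u ∉ M)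
    (huniv : insert t (insert u M) = Finset.univ) {α γ : ℝ} (h1 : α < γ) (h2 : γ < α + Real.pi)
    (K : Set (Fin n → ℝ)) :
    chg t u α γ '' K ∩ orth Finset.univ = chg t u α γ '' secSet t u M K α γ := by
  have hM' : ∀ i ∈ M, ∀ p, chg t u α γ p i = p i := fun i hi p => by
    rw [chg_apply, if_neg fun h : i = t => ht (h ▸ hi), if_neg fun h : i = u => hu (h ▸ hi)]
  rw [← image_inter_preimage]
  congr 1
  ext p
  have e1 : chg t u α γ p t = -ht' t u γ p := by rw [chg_apply, if_pos rfl]
  have e2 : chg t u α γ p u = ht' t u α p := by rw [chg_apply, if_neg htu.symm, if_pos rfl]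
  simp only [secSet, mem_inter_iff, mem_preimage, orth, Set.mem_ofPred_eq, ← huniv,
    Finset.mem_insert, forall_eq_or_imp, e1, e2, Left.nonneg_neg_iff]
  exact ⟨fun ⟨a, b, c, d⟩ => ⟨⟨a, fun i hi => hM' i hi p ▸ d i hi⟩, c, b⟩,
    fun ⟨⟨a, d⟩, c, b⟩ => ⟨a, b, c, fun i hi => (hM' i hi p).symm ▸ d i hi⟩⟩

lemma sec_chg (i : Fin (n + 1)) (t u : Fin n) {α γ : ℝ} (htu : t ≠ u) (h1 : α < γ)
    (h2 : γ < α + Real.pi) (K : Set (Fin (n + 1) → ℝ)) :
    sec i (chg (i.succAbove t) (i.succAbove u) α γ '' K) = chg t u α γ '' sec i K := by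
  have e : ∀ f, chg (i.succAbove t) (i.succAbove u) α γ (i.insertNth 0 f)
      = i.insertNth 0 (chg t u α γ f) := fun f => by
    refine Fin.eq_insertNth_iff.2 ⟨?_, ?_⟩
    · simp [chg_apply, (Fin.succAbove_ne i t).symm, (Fin.succAbove_ne i u).symm]
    · funext l
      simp [Fin.removeNth, chg_apply, ht']
  ext g
  constructor
  · rintro ⟨p, hp, hpg⟩
    have hpi : p i = 0 := by
      have := congrFun hpg i
      simpa [chg_apply, (Fin.succAbove_ne i t).symm, (Fin.succAbove_ne i u).symm] using this
    have hpe : i.insertNth 0 (i.removeNth p) = p := by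
      rw [← hpi]; exact Fin.insertNth_self_removeNth i p
    refine ⟨i.removeNth p, by rwa [mem_sec, hpe], ?_⟩
    have := e (i.removeNth p)
    rw [hpe, hpg] at this
    exact (Fin.insertNth_inj.1 this).2.symm
  · rintro ⟨f, hf, rfl⟩
    exact ⟨_, hf, e f⟩

lemma sec_secSet (i : Fin (n + 1)) (t u : Fin n) (M : Finset (Fin (n + 1)))
    (K : Set (Fin (n + 1) → ℝ)) (α γ : ℝ) :
    sec i (secSet (i.succAbove t) (i.succAbove u) M K α γ)
      = secSet t u (below i M) (sec i K) α γ := by
  ext f
  have := congrArg (f ∈ ·) (sec_orth i M K)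
  simp only [mem_sec, mem_inter_iff, eq_iff_iff] at this
  simp [secSet, ht', this]

lemma halfShare_quarter {M : Finset (Fin n)} (h : M.card + 2 = n) (K : Set (Fin n → ℝ)) :
    2 ^ n * (halfShare M K / 2) = volume.real K := by
  rw [halfShare, show (2 : ℝ) ^ n = 2 ^ (M.card + 1 + 1) from congrArg _ h.symm, pow_succ]
  field_simp

lemma chg_qt {t u i k : Fin n} (hti : t ≠ i) (htk : t ≠ k) (hui : u ≠ i) (huk : u ≠ k) (α γ : ℝ)
    (p : Fin n → ℝ) : qt i k (chg t u α γ p) = chg t u α γ (qt i k p) := by
  funext j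
  simp only [qt_apply, chg_apply, ht']
  split_ifs <;> simp_all

lemma Turned.chg {M : Finset (Fin n)} {K : Set (Fin n → ℝ)} (h : Turned M K) {t u : Fin n}
    (ht : t ∉ M) (hu : u ∉ M) (α γ : ℝ) : Turned M (Vale.Agent.P248.chg t u α γ '' K) := by
  intro i hi
  obtain ⟨k, hk, hinv⟩ := h i hi
  refine ⟨k, hk, ?_⟩
  rintro _ ⟨p, hp, rfl⟩
  exact ⟨_, hinv p hp, (chg_qt (fun e : t = i => ht (e ▸ hi)) (fun e : t = k => ht (e ▸ hk))
    (fun e : u = i => hu (e ▸ hi)) (fun e : u = k => hu (e ▸ hk)) α γ p).symm⟩

/-- Some coordinates of the free plane balance `K`, and do not change its class. -/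
lemma exists_balanced {K : Set (Fin (n + 1) → ℝ)} (hK : Good K) {M : Finset (Fin (n + 1))}
    (hM : Turned M K) (hpair : Pairs M K) {t u : Fin (n + 1)} (htu : t ≠ u) (ht : t ∉ M)
    (hu : u ∉ M) (huniv : insert t (insert u M) = Finset.univ) :
    ∃ α γ, α < γ ∧ γ < α + Real.pi ∧ Balanced (chg t u α γ '' K) := by
  classical
  have hcard : M.card + 2 = n + 1 := by
    have := congrArg Finset.card huniv
    rwa [Finset.card_insert_of_notMem (by simp [htu, ht]), Finset.card_insert_of_notMem hu,
      Finset.card_univ, Fintype.card_fin] at this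
  -- the lines
  obtain ⟨α, γ, h1, h2, hV, hS⟩ : ∃ α γ, α < γ ∧ γ < α + Real.pi ∧
      quad t u M K α γ = halfShare M K / 2 ∧
      ∀ i ∈ M, 2 ^ n * volume.real (sec i (secSet t u M K α γ)) = volume.real (sec i K) := by
    rcases M.eq_empty_or_nonempty with h0 | ⟨i₀, hi₀⟩
    · obtain ⟨g, -, hg⟩ := exists_second_line hK hM htu ht hu
      exact ⟨0, g 0, (hg 0).1, (hg 0).2.1, (hg 0).2.2.1, by simp [h0]⟩
    · obtain ⟨t', rfl⟩ := Fin.exists_succAbove_eq (show t ≠ i₀ from fun h => ht (h ▸ hi₀))
      obtain ⟨u', rfl⟩ := Fin.exists_succAbove_eq (show u ≠ i₀ from fun h => hu (h ▸ hi₀))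
      obtain ⟨α, γ, h1, h2, hV, hS⟩ := exists_lines hK hM htu ht hu (hK.sec i₀) (hM.sec i₀)
        (a := t') (b := u') (fun h => htu (by rw [h])) (by simpa [below] using ht)
        (by simpa [below] using hu)
      refine ⟨α, γ, h1, h2, hV, fun i hi => ?_⟩
      have hm := measurableSet_secSet (t := i₀.succAbove t') (u := i₀.succAbove u') (M := M)
        hK.compact α γ
      rcases eq_or_ne i₀ i with rfl | hii
      · rw [sec_secSet, show volume.real (secSet t' u' (below i₀ M) (sec i₀ K) α γ) = _ from hS]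
        refine halfShare_quarter ?_ _
        rw [card_below, Finset.card_erase_of_mem hi₀]
        have := Finset.card_pos.2 ⟨i₀, hi₀⟩
        omega
      set σ := Equiv.swap i₀ i with hσ
      have hval : ∀ p : Fin (n + 1) → ℝ, p (σ i₀) = 0 → (fun k => p (σ k)) = qt i₀ i p := by
        intro p hp
        rw [hσ, Equiv.swap_apply_left] at hp
        funext j
        rw [qt_apply]
        by_cases hj : j = i₀
        · subst hj; simp [hσ, hp]
        · by_cases hj' : j = i
          · subst hj'; simp [hσ, hj]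
          · simp [hσ, hj, hj', Equiv.swap_apply_of_ne_of_ne hj hj']
      have hiff : ∀ p, qt i₀ i p ∈ K ↔ p ∈ K := fun p =>
        ⟨fun hp => qt_four i₀ i p ▸ hpair _ hi₀ _ hi hii _ (hpair _ hi₀ _ hi hii _
          (hpair _ hi₀ _ hi hii _ hp)), hpair _ hi₀ _ hi hii p⟩
      have hinvK : ∀ p, p (σ i₀) = 0 → (p ∈ K ↔ (fun k => p (σ k)) ∈ K) := fun p hp => by
        rw [hval p hp, hiff]
      have hinvS : ∀ p, p (σ i₀) = 0 →
          (p ∈ secSet (i₀.succAbove t') (i₀.succAbove u') M K α γ ↔
          (fun k => p (σ k)) ∈ secSet (i₀.succAbove t') (i₀.succAbove u') M K α γ) := by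
        intro p hp
        have hfix : ∀ j, j ∉ M → σ j = j := fun j hj => Equiv.swap_apply_of_ne_of_ne
          (fun h => hj (h ▸ hi₀)) (fun h => hj (h ▸ hi))
        have horth : (∀ j ∈ M, 0 ≤ p j) ↔ ∀ j ∈ M, 0 ≤ p (σ j) := by
          have hm : ∀ j ∈ M, σ j ∈ M := fun j hj => by
            by_contra h
            rw [σ.injective (hfix _ h)] at h
            exact h hj
          refine ⟨fun h j hj => h _ (hm j hj), fun h j hj => ?_⟩
          have := h _ (hm j hj)
          rwa [hσ, Equiv.swap_apply_self] at this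
        simp only [secSet, mem_inter_iff, orth, Set.mem_ofPred_eq, ← hinvK p hp, ← horth, ht',
          hfix _ ht, hfix _ hu]
      have e1 : volume.real (sec i (secSet (i₀.succAbove t') (i₀.succAbove u') M K α γ))
          = quad t' u' (below i₀ M) (sec i₀ K) α γ := by
        have := volume_sec_perm hm σ i₀ hinvS
        rw [hσ, Equiv.swap_apply_left] at this
        rw [measureReal_def, this, sec_secSet]
        rfl
      have e2 : volume.real (sec i K) = volume.real (sec i₀ K) := by
        have := volume_sec_perm hK.compact.isClosed.measurableSet σ i₀ hinvK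
        rw [hσ, Equiv.swap_apply_left] at this
        rw [measureReal_def, this, measureReal_def]
      rw [e1, e2, hS]
      refine halfShare_quarter ?_ _
      rw [card_below, Finset.card_erase_of_mem hi₀]
      have := Finset.card_pos.2 ⟨i₀, hi₀⟩
      omega
  refine ⟨α, γ, h1, h2, ?_⟩
  set T := chg t u α γ
  have hd : LinearMap.det T ≠ 0 := chg_det_ne htu h1 h2
  have hMT : Turned M (T '' K) := hM.chg ht hu α γ
  refine balanced_of_share (hK.image hd) hMT htu ht hu huniv ?_ fun i hi => ?_
  · rw [chg_orth htu ht hu huniv h1 h2, real_image, real_image, ← halfShare_quarter hcard K,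
      show volume.real (secSet t u M K α γ) = _ from hV]
    ring
  · obtain ⟨t', rfl⟩ := Fin.exists_succAbove_eq (show t ≠ i from fun h => ht (h ▸ hi))
    obtain ⟨u', rfl⟩ := Fin.exists_succAbove_eq (show u ≠ i from fun h => hu (h ▸ hi))
    have htu' : t' ≠ u' := fun h => htu (by rw [h])
    rw [chg_orth htu ht hu huniv h1 h2, sec_chg i t' u' htu' h1 h2,
      sec_chg i t' u' htu' h1 h2, real_image, real_image, ← hS i hi]
    ring

/-- The volume product with quarter turns in the planes of `n - 2` coordinates. -/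
theorem mahler_turns : ∀ (n : ℕ) (K : Set (Fin n → ℝ)) (M : Finset (Fin n)) (t u : Fin n),
    t ≠ u → t ∉ M → u ∉ M → insert t (insert u M) = Finset.univ → Good K → Turned M K →
    Pairs M K → (4 : ℝ) ^ n / n.factorial ≤ volume.real K * volume.real (pol K) := by
  intro n
  induction n with
  | zero => intro _ _ t; exact t.elim0
  | succ n ih =>
    intro K M t u htu ht hu huniv hK hM hpair
    obtain ⟨α, γ, h1, h2, hbal⟩ := exists_balanced hK hM hpair htu ht hu huniv
    set T := chg t u α γ with hT
    have hd : LinearMap.det T ≠ 0 := chg_det_ne htu h1 h2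
    have hKT : Good (T '' K) := hK.image hd
    set U : ℝ := 4 ^ n / n.factorial with hU
    have hcard : M.card + 2 = n + 1 := by
      have := congrArg Finset.card huniv
      rwa [Finset.card_insert_of_notMem (by simp [htu, ht]), Finset.card_insert_of_notMem hu,
        Finset.card_univ, Fintype.card_fin] at this
    have hMT : Turned M (T '' K) := hM.chg ht hu α γ
    have hface : ∀ i, U ≤ volume.real (sec i (T '' K)) * volume.real (pol (sec i (T '' K))) := by
      intro i
      by_cases hi : i ∈ M
      · obtain ⟨t', rfl⟩ := Fin.exists_succAbove_eq (show t ≠ i from fun h => ht (h ▸ hi))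
        obtain ⟨u', rfl⟩ := Fin.exists_succAbove_eq (show u ≠ i from fun h => hu (h ▸ hi))
        have htu' : t' ≠ u' := fun h => htu (by rw [h])
        rw [hT, sec_chg i t' u' htu' h1 h2, product_image (chg_det_ne htu' h1 h2)]
        refine ih _ (below i M) t' u' htu' (by simpa [below] using ht) (by simpa [below] using hu)
          ?_ (hK.sec i) (hM.sec i) (hpair.sec i)
        ext j
        have := (huniv ▸ Finset.mem_univ (i.succAbove j) :
          i.succAbove j ∈ insert (i.succAbove t') (insert (i.succAbove u') M))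
        simpa [below, Fin.succAbove_right_inj] using this
      · refine product_bound_quarter n _ (hKT.sec i) fun a b hab => ?_
        have hin : ∀ c, c ∈ below i M → HasTurn (sec i (T '' K)) c := fun c hc => by
          obtain ⟨k, -, hk⟩ := hMT.sec i c hc
          exact ⟨k, hk⟩
        by_cases ha : a ∈ below i M
        · exact Or.inl (hin a ha)
        by_cases hb : b ∈ below i M
        · exact Or.inr (hin b hb)
        have hle := Finset.card_le_univ (insert a (insert b (below i M)))
        rw [Finset.card_insert_of_notMem (by simp [hab, ha]), Finset.card_insert_of_notMem hb,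
          card_below, Finset.erase_eq_of_notMem hi, Fintype.card_fin] at hle
        omega
    have hstep := balanced_step hKT hbal
    rw [hT, product_image (chg_det_ne htu h1 h2), ← hT] at hstep
    have hsum : ((n : ℝ) + 1) * U
        ≤ ∑ i, volume.real (sec i (T '' K)) * volume.real (pol (sec i (T '' K))) := by
      simpa using Finset.sum_le_sum fun i (_ : i ∈ Finset.univ) => hface i
    have h5 : 4 * (((n : ℝ) + 1) * U) ≤ ((n : ℝ) + 1) ^ 2 * (volume.real K * volume.real (pol K)) :=
      (mul_le_mul_of_nonneg_left hsum (by norm_num)).trans hstep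
    refine le_trans (le_of_eq ?_) ((div_le_iff₀' (by positivity : (0 : ℝ) < ((n : ℝ) + 1) ^ 2)).2 h5)
    rw [hU, pow_succ, Nat.factorial_succ n]
    push_cast
    field_simp

end Vale.Agent.P248
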