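import Vale.Agent.P248.Rot

/-
P248: the improved step with two free coordinates.

The slice of the polar body by the plane of two free coordinates contains, in every direction,
the normalised volume of the orthogonal section of `K`. An affine regular hexagon inscribed in
this slice gives a zonotope in the polar body with three edges in the plane, each of norm 1/2.
-/

namespace Vale.Agent.P248

open MeasureTheory Set
open scoped ENNReal Pointwise

variable {n : ℕ}

/-- A planar vector placed in the coordinates `t`, `u`. -/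
def planeVec (t u : Fin n) (z : ℝ × ℝ) : Fin n → ℝ :=
  fun i => if i = t then z.1 else if i = u then z.2 else 0

lemma planeVec_comb (t u : Fin n) (a b : ℝ) (z z' : ℝ × ℝ) :
    planeVec t u (a • z + b • z') = a • planeVec t u z + b • planeVec t u z' := by
  funext i; simp only [planeVec, Pi.add_apply, Pi.smul_apply, smul_eq_mul, Prod.fst_add,
    Prod.snd_add, Prod.smul_fst, Prod.smul_snd]
  split_ifs <;> ring

lemma planeVec_smul (t u : Fin n) (a : ℝ) (z : ℝ × ℝ) :
    planeVec t u (a • z) = a • planeVec t u z := by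
  simpa using planeVec_comb t u a 0 z 0

lemma planeVec_add (t u : Fin n) (z z' : ℝ × ℝ) :
    planeVec t u (z + z') = planeVec t u z + planeVec t u z' := by
  simpa using planeVec_comb t u 1 1 z z'

lemma planeVec_zero (t u : Fin n) : planeVec t u 0 = 0 := by
  funext i; simp [planeVec]

/-- The unit vector of angle `θ`. -/
noncomputable def dir (θ : ℝ) : ℝ × ℝ := (Real.cos θ, Real.sin θ)

lemma exists_polar (z : ℝ × ℝ) : ∃ r θ : ℝ, 0 ≤ r ∧ z = r • dir θ := by
  refine ⟨‖(⟨z.1, z.2⟩ : ℂ)‖, Complex.arg ⟨z.1, z.2⟩, norm_nonneg _, ?_⟩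
  ext
  · simp [dir, Complex.norm_mul_cos_arg]
  · simp [dir, Complex.norm_mul_sin_arg]

lemma rot_planeVec {t u : Fin n} (h : t ≠ u) (θ r : ℝ) :
    rot t u θ (planeVec t u (r • dir θ)) = Pi.single t r := by
  have hs := Real.sin_sq_add_cos_sq θ
  funext i
  simp only [rot_apply, planeVec, dir, Prod.smul_mk, smul_eq_mul, if_true, if_neg h.symm]
  split_ifs with h1 h2
  · subst h1; simp only [Pi.single_eq_same]; linear_combination r * hs
  · rw [Pi.single_eq_of_ne h1]; ring
  · rw [Pi.single_eq_of_ne h1]

lemma dot_planeVec {t u : Fin n} (h : t ≠ u) (θ : ℝ) (x : Fin n → ℝ) :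
    dotProduct x (planeVec t u (dir θ)) = rot t u θ x t := by
  rw [dotProduct, ← Finset.sum_subset (Finset.subset_univ ({t, u} : Finset (Fin n)))
    (fun i _ hi => ?_), Finset.sum_pair h]
  · simp only [planeVec, dir, rot_apply, if_true, if_neg h.symm]; ring
  · simp only [Finset.mem_insert, Finset.mem_singleton, not_or] at hi
    simp [planeVec, hi.1, hi.2]

/-- A symmetric planar convex body has an inscribed affine regular hexagon. -/
lemma exists_hexagon {C : Set (ℝ × ℝ)} (hC : Convex ℝ C) (hcl : IsClosed C)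
    (hsym : ∀ z ∈ C, -z ∈ C) (h0 : C ∈ nhds 0) (hb : Bornology.IsBounded C) :
    ∃ a b : ℝ × ℝ, gauge C a = 1 ∧ gauge C b = 1 ∧ gauge C (a - b) = 1 := by
  have hpos : ∀ {x : ℝ × ℝ}, x ≠ 0 → 0 < gauge C x := fun hx =>
    (gauge_pos (absorbent_nhds_zero h0) (NormedSpace.isVonNBounded_iff ℝ |>.2 hb)).2 hx
  have hne : ∀ θ, dir θ ≠ 0 := fun θ h => by
    simp only [dir, Prod.ext_iff, Prod.fst_zero, Prod.snd_zero] at h
    have := Real.sin_sq_add_cos_sq θ
    rw [h.1, h.2] at this
    norm_num at this
  set q : ℝ → ℝ × ℝ := fun θ => (gauge C (dir θ))⁻¹ • dir θ with hq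
  have hq1 : ∀ θ, gauge C (q θ) = 1 := fun θ => by
    rw [hq, gauge_smul_of_nonneg (inv_nonneg.2 (gauge_nonneg _)), smul_eq_mul,
      inv_mul_cancel₀ (hpos (hne θ)).ne']
  have hg := continuous_gauge hC h0
  have hd : Continuous dir := Real.continuous_cos.prodMk Real.continuous_sin
  have hqc : Continuous q := ((hg.comp hd).inv₀ fun θ => (hpos (hne θ)).ne').smul hd
  have e0 : gauge C (q 0 - q 0) = 0 := by simp
  have e1 : gauge C (q 0 - q Real.pi) = 2 := by
    have hflip : dir Real.pi = -dir 0 := by simp [dir]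
    have : q Real.pi = -q 0 := by
      simp only [hq, hflip, gauge_neg hsym, smul_neg]
    rw [this, sub_neg_eq_add, ← two_smul ℝ, gauge_smul_of_nonneg (by norm_num : (0 : ℝ) ≤ 2),
      hq1, smul_eq_mul, mul_one]
  obtain ⟨θ, -, hθ⟩ := intermediate_value_Icc Real.pi_pos.le
    ((hg.comp (continuous_const.sub hqc)).continuousOn (s := Icc 0 Real.pi))
    (show (1 : ℝ) ∈ Icc (gauge C (q 0 - q 0)) (gauge C (q 0 - q Real.pi)) by
      rw [e0, e1]; norm_num)
  exact ⟨q 0, q θ, hq1 _, hq1 _, hθ⟩

/-- The step of the induction with two free coordinates. -/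
lemma product_step_two {K : Set (Fin (n + 1) → ℝ)} (hK : Good K) {M : Finset (Fin (n + 1))}
    (hM : Mirrored M K) {t u : Fin (n + 1)} (ht : t ∉ M) (hu : u ∉ M) (htu : t ≠ u) {U : ℝ}
    (hU0 : 0 ≤ U)
    (hU : ∀ θ, U ≤ volume.real (sec t (rotSet t u θ K))
      * volume.real (pol (sec t (rotSet t u θ K)))) :
    4 * (∑ i ∈ M, volume.real (sec i K) * volume.real (pol (sec i K))) + 6 * U
      ≤ (n + 1) ^ 2 * (volume.real K * volume.real (pol K)) := by
  classical
  set L := pol K with hL
  have hLg : Good L := hK.pol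
  set V := volume.real K with hV
  have hVpos : 0 < V := ENNReal.toReal_pos
    (Measure.measure_pos_of_mem_nhds volume hK.mem_nhds).ne' hK.compact.measure_lt_top.ne
  set c : ℝ := 2 / ((n + 1) * V) with hc
  have hc0 : 0 < c := by positivity
  set base : List (Fin (n + 1)) → Fin (n + 1) → ℝ :=
    fun l i => if i ∈ M ∧ i ∉ l then c * volume.real (sec i K) else 0 with hbase
  set C : Set (ℝ × ℝ) := {z | base [] + planeVec t u (c • z) ∈ L} with hC
  have hpvC : ∀ z, z ∈ C ↔ base [] + planeVec t u (c • z) ∈ L := fun z => Iff.rfl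
  -- the sections give points of the slice
  set σ : ℝ → ℝ := fun θ => volume.real (sec t (rotSet t u θ K)) with hσ
  have hσC : ∀ θ, σ θ • dir θ ∈ C := by
    intro θ x hx
    have hxr : rot t u θ x ∈ rotSet t u θ K := by simpa [rotSet, rot_neg_rot htu] using hx
    have hg := hK.rotSet htu θ
    have h := pyramid_sym hg.compact hg.convex hg.neg (hM.rotSet ht hu θ) ht hxr
    rw [Finset.sum_insert ht] at h
    have hcoord : ∀ i ∈ M, |rot t u θ x i| * volume.real (sec i (rotSet t u θ K))
        = |x i| * volume.real (sec i K) := by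
      intro i hi
      have h1 : i ≠ t := fun e => ht (e ▸ hi)
      have h2 : i ≠ u := fun e => hu (e ▸ hi)
      rw [rot_apply, if_neg h1, if_neg h2, measureReal_def, measureReal_def,
        volume_sec_rotSet h1.symm h2.symm htu θ hK.compact]
    rw [Finset.sum_congr rfl hcoord,
      show volume.real (rotSet t u θ K) = V by
        rw [measureReal_def, volume_rotSet htu θ hK.compact.isClosed.measurableSet]; rfl] at h
    rw [dotProduct_add, planeVec_smul, planeVec_smul, dotProduct_smul, dotProduct_smul,
      dot_planeVec htu]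
    have hb : dotProduct x (base []) = ∑ i ∈ M, x i * (c * volume.real (sec i K)) := by
      rw [dotProduct, ← Finset.sum_subset (Finset.subset_univ M)
        (fun i _ hi => by simp [hbase, hi])]
      exact Finset.sum_congr rfl fun i hi => by simp [hbase, hi]
    rw [hb]
    calc ∑ i ∈ M, x i * (c * volume.real (sec i K)) + c • σ θ • rot t u θ x t
        ≤ c / 2 * (2 * (|rot t u θ x t| * σ θ + ∑ i ∈ M, |x i| * volume.real (sec i K))) := by
          rw [mul_add, mul_add, Finset.mul_sum, Finset.mul_sum, add_comm]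
          refine add_le_add ?_ (Finset.sum_le_sum fun i _ => ?_)
          · have := mul_le_mul_of_nonneg_right (le_abs_self (rot t u θ x t))
              (mul_nonneg hc0.le (measureReal_nonneg (μ := volume)
                (s := sec t (rotSet t u θ K))))
            simp only [smul_eq_mul, hσ]
            linarith
          · have := mul_le_mul_of_nonneg_right (le_abs_self (x i))
              (mul_nonneg hc0.le (measureReal_nonneg (μ := volume) (s := sec i K)))
            linarith
      _ ≤ c / 2 * ((n + 1) * V) := mul_le_mul_of_nonneg_left h (by positivity)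
      _ = 1 := by rw [hc]; field_simp
  have hσpos : ∀ θ, 0 < σ θ := fun θ => ENNReal.toReal_pos
    (Measure.measure_pos_of_mem_nhds volume ((hK.rotSet htu θ).sec t).mem_nhds).ne'
    ((hK.rotSet htu θ).sec t).compact.measure_lt_top.ne
  have hCconv : Convex ℝ C := by
    intro z hz z' hz' a b ha hb hab
    rw [hpvC]
    convert hLg.convex hz hz' ha hb hab using 1
    rw [smul_add, smul_comm c a, smul_comm c b, planeVec_comb]
    have : base [] = a • base [] + b • base [] := by rw [← add_smul, hab, one_smul]
    conv_lhs => rw [this]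
    module
  have hCcl : IsClosed C := by
    refine hLg.compact.isClosed.preimage (continuous_pi fun i => ?_)
    simp only [Pi.add_apply, planeVec]
    split_ifs <;> fun_prop
  have hflipL : ∀ (A : Finset (Fin (n + 1))), A ⊆ M → ∀ p ∈ L, negOn A p ∈ L :=
    fun A hA p hp => (hM.pol).negOn_mem hA hp
  have hCsym : ∀ z ∈ C, -z ∈ C := by
    intro z hz
    rw [hpvC]
    convert hflipL M subset_rfl _ (hLg.neg _ hz) using 1
    funext i
    simp only [negOn, Pi.add_apply, Pi.neg_apply, planeVec, hbase, List.not_mem_nil,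
      not_false_eq_true, and_true, smul_neg, Prod.fst_neg, Prod.snd_neg]
    by_cases hi : i ∈ M
    · have h1 : i ≠ t := fun e => ht (e ▸ hi)
      have h2 : i ≠ u := fun e => hu (e ▸ hi)
      simp [hi, h1, h2]
    · simp only [if_neg hi]; split_ifs <;> ring
  have hC0 : C ∈ nhds 0 := by
    have a0 : ((σ 0, 0) : ℝ × ℝ) ∈ C := by simpa [dir] using hσC 0
    have a1 : ((0, σ (Real.pi / 2)) : ℝ × ℝ) ∈ C := by simpa [dir] using hσC (Real.pi / 2)
    have b0 : ((-σ 0, 0) : ℝ × ℝ) ∈ C := by simpa using hCsym _ a0
    have b1 : ((0, -σ (Real.pi / 2)) : ℝ × ℝ) ∈ C := by simpa using hCsym _ a1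
    refine Filter.mem_of_superset (prod_mem_nhds
      (Icc_mem_nhds (show -(σ 0 / 2) < (0 : ℝ) by linarith [hσpos 0])
        (show (0 : ℝ) < σ 0 / 2 by linarith [hσpos 0]))
      (Icc_mem_nhds (show -(σ (Real.pi / 2) / 2) < (0 : ℝ) by linarith [hσpos (Real.pi / 2)])
        (show (0 : ℝ) < σ (Real.pi / 2) / 2 by linarith [hσpos (Real.pi / 2)]))) ?_
    rintro ⟨p, q⟩ ⟨hp, hq⟩
    have hP : ((2 * p, 0) : ℝ × ℝ) ∈ C := by
      have hs : Convex ℝ {s : ℝ | ((s, 0) : ℝ × ℝ) ∈ C} := by
        intro x hx y hy a b ha hb hab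
        have := hCconv hx hy ha hb hab
        simpa using this
      exact hs.ordConnected.out b0 a0 ⟨by linarith [hp.1], by linarith [hp.2]⟩
    have hQ : ((0, 2 * q) : ℝ × ℝ) ∈ C := by
      have hs : Convex ℝ {s : ℝ | ((0, s) : ℝ × ℝ) ∈ C} := by
        intro x hx y hy a b ha hb hab
        have := hCconv hx hy ha hb hab
        simpa using this
      exact hs.ordConnected.out b1 a1 ⟨by linarith [hq.1], by linarith [hq.2]⟩
    have := hCconv hP hQ (by norm_num : (0 : ℝ) ≤ 1 / 2) (by norm_num : (0 : ℝ) ≤ 1 / 2)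
      (by norm_num)
    simpa using this
  have hCb : Bornology.IsBounded C := by
    refine ((hLg.compact.image (f := fun y : Fin (n + 1) → ℝ => ((y t / c, y u / c) : ℝ × ℝ))
      (by fun_prop)).isBounded).subset fun z hz => ⟨_, hz, ?_⟩
    simp only [hbase, Pi.add_apply, planeVec, ht, hu, false_and, if_false, if_true,
      if_neg htu.symm, zero_add, Prod.smul_fst, Prod.smul_snd, smul_eq_mul]
    ext <;> simp [hc0.ne']
  obtain ⟨A, B, hA1, hB1, hAB1⟩ := exists_hexagon hCconv hCcl hCsym hC0 hCb
  have hmemC : ∀ z, gauge C z ≤ 1 → z ∈ C := fun z hz => by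
    rwa [gauge_le_one_iff_mem_closure hCconv hC0, hCcl.closure_eq] at hz
  -- the half edges
  set e1 : ℝ × ℝ := (1 / 2 : ℝ) • A
  set e2 : ℝ × ℝ := (1 / 2 : ℝ) • B
  set e3 : ℝ × ℝ := (1 / 2 : ℝ) • (A - B)
  set S0 := zono [planeVec t u (c • e1), planeVec t u (c • e2), planeVec t u (c • e3)]
  have hS0 : ∀ q ∈ S0, ∃ z ∈ C, q = planeVec t u (c • z) := by
    set T := {q | ∃ z ∈ C, q = planeVec t u (c • z)}
    have hT : Convex ℝ T := by
      rintro _ ⟨z, hz, rfl⟩ _ ⟨z', hz', rfl⟩ a b ha hb hab
      refine ⟨a • z + b • z', hCconv hz hz' ha hb hab, ?_⟩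
      rw [smul_add, smul_comm c a, smul_comm c b, planeVec_comb]
    have hstep : ∀ (z0 : ℝ × ℝ) (d : Fin (n + 1) → ℝ), ∀ p : Fin (n + 1) → ℝ,
        p + d ∈ T → p - d ∈ T → ∀ s ∈ Icc (-1 : ℝ) 1, p + s • d ∈ T := by
      intro z0 d p h1 h2 s hs
      convert hT h1 h2 (by linarith [hs.1] : 0 ≤ (1 + s) / 2)
        (by linarith [hs.2] : 0 ≤ (1 - s) / 2) (by ring) using 1
      module
    have hsum : ∀ s1 s2 s3 : ℝ, |s1| = 1 → |s2| = 1 → |s3| = 1 →
        s1 • e1 + s2 • e2 + s3 • e3 ∈ C := by
      intro s1 s2 s3 h1 h2 h3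
      have hz : (0 : ℝ × ℝ) ∈ C := mem_of_mem_nhds hC0
      have mA := hmemC A hA1.le
      have mB := hmemC B hB1.le
      have mAB := hmemC _ hAB1.le
      rcases (abs_eq zero_le_one).1 h1 with rfl | rfl <;>
        rcases (abs_eq zero_le_one).1 h2 with rfl | rfl <;>
          rcases (abs_eq zero_le_one).1 h3 with rfl | rfl
      · convert mA using 1; simp only [e1, e2, e3]; module
      · convert mB using 1; simp only [e1, e2, e3]; module
      · convert mAB using 1; simp only [e1, e2, e3]; module
      · convert hz using 1; simp only [e1, e2, e3]; module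
      · convert hz using 1; simp only [e1, e2, e3]; module
      · convert hCsym _ mAB using 1; simp only [e1, e2, e3]; module
      · convert hCsym _ mB using 1; simp only [e1, e2, e3]; module
      · convert hCsym _ mA using 1; simp only [e1, e2, e3]; module
    have hcorner : ∀ s1 s2 s3 : ℝ, |s1| = 1 → |s2| = 1 → |s3| = 1 →
        s3 • planeVec t u (c • e3) + s2 • planeVec t u (c • e2)
          + s1 • planeVec t u (c • e1) ∈ T := by
      intro s1 s2 s3 h1 h2 h3
      refine ⟨_, hsum s1 s2 s3 h1 h2 h3, ?_⟩
      simp only [smul_add, smul_comm c, planeVec_add, planeVec_smul]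
      abel
    rintro _ ⟨⟨p1, s1⟩, ⟨⟨⟨p2, s2⟩, ⟨⟨⟨p3, s3⟩, ⟨h0', hs3⟩, rfl⟩, hs2⟩, rfl⟩, hs1⟩, rfl⟩
    obtain rfl : p3 = 0 := h0'
    simp only [zero_add]
    have l1 : ∀ a b : ℝ, |a| = 1 → |b| = 1 → ∀ s ∈ Icc (-1 : ℝ) 1,
        b • planeVec t u (c • e3) + a • planeVec t u (c • e2)
          + s • planeVec t u (c • e1) ∈ T := fun a b ha hb s hs => by
      refine hstep 0 _ _ ?_ ?_ s hs
      · simpa using hcorner 1 a b (by simp) ha hb
      · simpa [sub_eq_add_neg] using hcorner (-1) a b (by simp) ha hb
    have l2 : ∀ b : ℝ, |b| = 1 → ∀ s' ∈ Icc (-1 : ℝ) 1, ∀ s ∈ Icc (-1 : ℝ) 1,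
        b • planeVec t u (c • e3) + s' • planeVec t u (c • e2)
          + s • planeVec t u (c • e1) ∈ T := fun b hb s' hs' s hs => by
      have := hstep 0 (planeVec t u (c • e2))
        (b • planeVec t u (c • e3) + s • planeVec t u (c • e1))
        (by convert l1 1 b (by simp) hb s hs using 1; module)
        (by convert l1 (-1) b (by simp) hb s hs using 1; module) s' hs'
      convert this using 1; module
    have := hstep 0 (planeVec t u (c • e3))
      (s2 • planeVec t u (c • e2) + s1 • planeVec t u (c • e1))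
      (by convert l2 1 (by simp) s2 hs2 s1 hs1 using 1; module)
      (by convert l2 (-1) (by simp) s2 hs2 s1 hs1 using 1; module) s3 hs3
    show s3 • planeVec t u (c • e3) + s2 • planeVec t u (c • e2) + s1 • planeVec t u (c • e1) ∈ T
    rwa [show s3 • planeVec t u (c • e3) + s2 • planeVec t u (c • e2) + s1 • planeVec t u (c • e1)
      = s2 • planeVec t u (c • e2) + s1 • planeVec t u (c • e1) + s3 • planeVec t u (c • e3) by
        module]
  set edge : Fin (n + 1) → Fin (n + 1) → ℝ :=
    fun i => Pi.single i (c * volume.real (sec i K)) with hedge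
  set hex := [planeVec t u (c • e1), planeVec t u (c • e2), planeVec t u (c • e3)]
  have hinv : ∀ l : List (Fin (n + 1)), l.Nodup → (∀ i ∈ l, i ∈ M) →
      ∀ q ∈ zono (l.map edge ++ hex), base l + q ∈ L ∧ ∀ i ∈ M, i ∉ l → q i = 0 := by
    intro l
    induction l with
    | nil =>
      intro _ _ q hq
      obtain ⟨z, hz, rfl⟩ := hS0 q hq
      refine ⟨hz, fun i hi _ => ?_⟩
      simp [planeVec, show i ≠ t from fun e => ht (e ▸ hi), show i ≠ u from fun e => hu (e ▸ hi)]
    | cons j l ih =>
      intro hnd hsub q hq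
      obtain ⟨⟨p, a⟩, ⟨hp, ha⟩, rfl⟩ := hq
      obtain ⟨hjl, hnd'⟩ := List.nodup_cons.1 hnd
      have hj := hsub j List.mem_cons_self
      obtain ⟨h1, h2⟩ := ih hnd' (fun i hi => hsub i (List.mem_cons_of_mem _ hi)) p hp
      have hpj : p j = 0 := h2 j hj hjl
      have hb : base l = base (j :: l) + edge j := by
        funext i
        by_cases hij : i = j
        · subst hij; simp [hbase, hedge, hj, hjl]
        · simp [hbase, hedge, hij]
      have hm : base (j :: l) + p - edge j ∈ L := by
        convert hflipL {j} (by simpa using hj) _ h1 using 1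
        funext i
        by_cases hij : i = j
        · subst hij; simp [negOn, hbase, hedge, hpj, hj, hjl]
        · simp [negOn, hb, hij, hedge]
      constructor
      · have := hLg.convex (show base (j :: l) + p + edge j ∈ L by
          convert h1 using 1; rw [hb]; abel) hm
          (by linarith [ha.1] : 0 ≤ (1 + a) / 2) (by linarith [ha.2] : 0 ≤ (1 - a) / 2) (by ring)
        convert this using 1
        simp only
        module
      · intro i hi hil
        rw [List.mem_cons, not_or] at hil
        simp [h2 i hi hil.2, hedge, hil.1]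
  have hzono : zono (M.toList.map edge ++ hex) ⊆ L := fun q hq => by
    have := (hinv M.toList M.nodup_toList (fun i hi => Finset.mem_toList.1 hi) q hq).1
    have hb0 : base M.toList = 0 := by funext i; simp [hbase]
    rwa [hb0, zero_add] at this
  -- weights
  have hweight : ∀ e : ℝ × ℝ, gauge C e = 1 / 2 → ∀ A : Set (Fin (n + 1) → ℝ), IsCompact A →
      Convex ℝ A → L ⊆ A → ∀ ε : ℝ, 0 ≤ ε →
      volume.real A + ε * (c * U) ≤ volume.real (seg (ε • planeVec t u (c • e)) A) := by
    intro e he A hAc hAconv hLA ε hε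
    obtain ⟨r, θ, hr, rfl⟩ := exists_polar e
    rw [gauge_smul_of_nonneg hr, smul_eq_mul] at he
    have hσg : σ θ * gauge C (dir θ) ≤ 1 := by
      have := gauge_le_one_of_mem (hσC θ)
      rwa [gauge_smul_of_nonneg (hσpos θ).le, smul_eq_mul] at this
    have hgpos : 0 < gauge C (dir θ) := by
      refine (gauge_nonneg _).lt_of_ne fun h => ?_
      rw [← h, mul_zero] at he; norm_num at he
    have hσr : σ θ ≤ 2 * r := by
      refine le_of_mul_le_mul_right ?_ hgpos
      linarith
    have himg : rot t u θ '' seg (ε • planeVec t u (c • r • dir θ)) A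
        = seg (Pi.single t (ε * (c * r))) (rot t u θ '' A) := by
      rw [image_seg, smul_smul, map_smul, rot_planeVec htu, ← Pi.single_smul, smul_eq_mul]
    have hAr : IsCompact (rot t u θ '' A) :=
      hAc.image (LinearMap.continuous_of_finiteDimensional _)
    have hgrow := grow_axis (t := t) (s := ε * (c * r)) (by positivity) hAr
      (hAconv.linear_image _)
    rw [← himg] at hgrow
    have hv : ∀ S : Set (Fin (n + 1) → ℝ), IsCompact S →
        volume.real (rot t u θ '' S) = volume.real S := fun S hS => by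
      rw [← rotSet_eq_image htu, measureReal_def,
        volume_rotSet htu θ hS.isClosed.measurableSet]; rfl
    rw [hv A hAc, hv _ (isCompact_seg hAc)] at hgrow
    have hproj : volume.real (pol (sec t (rotSet t u θ K)))
        ≤ volume.real (t.removeNth '' (rot t u θ '' A)) := by
      refine measureReal_mono ((pol_sec_proj (hK.rotSet htu θ) t).trans ?_)
        (hAr.image (continuous_removeNth' t)).measure_lt_top.ne
      rw [pol_rotSet htu, rotSet_eq_image htu]
      exact image_mono (image_mono hLA)
    have hkey : U ≤ 2 * r * volume.real (t.removeNth '' (rot t u θ '' A)) :=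
      (hU θ).trans (mul_le_mul hσr hproj measureReal_nonneg (by positivity))
    have := mul_le_mul_of_nonneg_left hkey (mul_nonneg hε hc0.le)
    linarith
  set w : (Fin (n + 1) → ℝ) → ℝ := fun d =>
    if ∃ i ∈ M, d i ≠ 0 then
      2 * ∑ i ∈ M, |d i| * volume.real (pol (sec i K))
    else c * U with hw
  have hwhex : ∀ e : ℝ × ℝ, w (planeVec t u (c • e)) = c * U := fun e => by
    rw [hw]
    refine if_neg ?_
    rintro ⟨i, hi, hne⟩
    exact hne (by simp [planeVec, show i ≠ t from fun h => ht (h ▸ hi),
      show i ≠ u from fun h => hu (h ▸ hi)])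
  have hwedge : ∀ i ∈ M, w (edge i)
      = 2 * (c * volume.real (sec i K)) * volume.real (pol (sec i K)) := by
    intro i hi
    have hpos : 0 < c * volume.real (sec i K) := mul_pos hc0 (ENNReal.toReal_pos
      (Measure.measure_pos_of_mem_nhds volume (hK.sec i).mem_nhds).ne'
      (hK.sec i).compact.measure_lt_top.ne)
    rw [hw]
    simp only
    rw [if_pos ⟨i, hi, by simp [hedge, hpos.ne']⟩, Finset.sum_eq_single i
      (fun j _ hj => by simp [hedge, hj]) (fun h => absurd hi h)]
    simp [hedge, abs_of_pos hpos]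
    ring
  have hge : ∀ e : ℝ × ℝ, gauge C e = 1 → gauge C ((1 / 2 : ℝ) • e) = 1 / 2 := fun e he => by
    rw [gauge_smul_of_nonneg (by norm_num : (0 : ℝ) ≤ 1 / 2), he, smul_eq_mul, mul_one]
  have hbound := zono_bound hLg.compact hLg.convex w (M.toList.map edge ++ hex) (by
    intro d hd A' hAc hAconv hLA ε hε
    rcases List.mem_append.1 hd with h | h
    · obtain ⟨i, hi, rfl⟩ := List.mem_map.1 h
      rw [Finset.mem_toList] at hi
      rw [hwedge i hi]
      have e : ε • edge i = Pi.single i (ε * (c * volume.real (sec i K))) := by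
        rw [hedge, ← Pi.single_smul, smul_eq_mul]
      have hp : volume.real (pol (sec i K)) ≤ volume.real (i.removeNth '' A') := by
        refine measureReal_mono ((pol_sec_proj hK i).trans (image_mono hLA))
          (hAc.image (continuous_removeNth' i)).measure_lt_top.ne
      rw [e]
      refine le_trans ?_ (grow_axis (mul_nonneg hε
        (mul_nonneg hc0.le measureReal_nonneg)) hAc hAconv)
      have := mul_le_mul_of_nonneg_left hp
        (mul_nonneg hε (mul_nonneg hc0.le (measureReal_nonneg (μ := volume) (s := sec i K))))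
      linarith
    · simp only [hex, List.mem_cons, List.not_mem_nil, or_false] at h
      rcases h with rfl | rfl | rfl <;> rw [hwhex]
      · exact hweight e1 (hge A hA1) A' hAc hAconv hLA ε hε
      · exact hweight e2 (hge B hB1) A' hAc hAconv hLA ε hε
      · exact hweight e3 (hge _ hAB1) A' hAc hAconv hLA ε hε) hzono
  rw [List.map_append, List.sum_append, List.map_map, Finset.sum_map_toList] at hbound
  simp only [Function.comp_apply, hex, List.map_cons, List.map_nil, List.sum_cons, List.sum_nil,
    hwhex, Finset.sum_congr rfl hwedge] at hbound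
  push_cast at hbound
  have h4 := mul_le_mul_of_nonneg_right hbound (by positivity : (0 : ℝ) ≤ (n + 1) * V)
  simp only [hc, mul_assoc, ← Finset.mul_sum] at h4
  field_simp at h4
  linarith

/-- The volume product with `n - k` coordinate mirrors, improved by hexagons. -/
theorem product_bound_two : ∀ (n : ℕ) (K : Set (Fin n → ℝ)) (M : Finset (Fin n)), Good K →
    Mirrored M K →
    (4 : ℝ) ^ n / (n.factorial * (n - M.card).factorial) * (3 / 2) ^ (n - M.card - 1)
      ≤ volume.real K * volume.real (pol K) := by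
  intro n
  induction n with
  | zero => intro K M hK hM; simpa using product_bound 0 K M hK hM
  | succ n ih =>
    intro K M hK hM
    by_cases h2 : M.card + 2 ≤ n + 1
    · obtain ⟨t, u, ht, hu, htu⟩ : ∃ t u, t ∉ M ∧ u ∉ M ∧ t ≠ u := by
        have hc : 1 < Mᶜ.card := by rw [Finset.card_compl, Fintype.card_fin]; omega
        obtain ⟨t, ht, u, hu, h⟩ := Finset.one_lt_card.1 hc
        exact ⟨t, u, Finset.mem_compl.1 ht, Finset.mem_compl.1 hu, h⟩
      obtain ⟨d, hd⟩ : ∃ d, n = M.card + (d + 1) := ⟨n - M.card - 1, by omega⟩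
      have hk : n + 1 - M.card = d + 2 := by omega
      set U : ℝ := 4 ^ n / n.factorial with hU
      have hface : ∀ i ∈ M, U / (d + 2).factorial * (3 / 2) ^ (d + 1)
          ≤ volume.real (sec i K) * volume.real (pol (sec i K)) := fun i hi => by
        have := ih (sec i K) (below i M) (hK.sec i) (hM.sec i)
        rw [card_below, Finset.card_erase_of_mem hi, show n - (M.card - 1) = d + 2 by
          have := Finset.card_pos.2 ⟨i, hi⟩; omega, show d + 2 - 1 = d + 1 by omega] at this
        rwa [hU, div_div]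
      have hrot : ∀ θ, U / (d + 1).factorial * (3 / 2) ^ d
          ≤ volume.real (sec t (rotSet t u θ K))
            * volume.real (pol (sec t (rotSet t u θ K))) := fun θ => by
        have := ih _ (below t M) ((hK.rotSet htu θ).sec t) ((hM.rotSet ht hu θ).sec t)
        rw [card_below, Finset.erase_eq_of_notMem ht, show n - M.card = d + 1 by omega,
          Nat.add_sub_cancel] at this
        rwa [hU, div_div]
      have hU0 : 0 ≤ U / (d + 1).factorial * (3 / 2) ^ d := by rw [hU]; positivity
      have hstep := product_step_two hK hM ht hu htu hU0 hrot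
      have hsum := Finset.sum_le_sum hface
      rw [Finset.sum_const, nsmul_eq_mul] at hsum
      have h5 : 4 * ((M.card : ℝ) * (U / (d + 2).factorial * (3 / 2) ^ (d + 1)))
          + 6 * (U / (d + 1).factorial * (3 / 2) ^ d)
          ≤ ((n : ℝ) + 1) ^ 2 * (volume.real K * volume.real (pol K)) := by linarith
      rw [hk, show d + 2 - 1 = d + 1 by omega]
      refine le_trans (le_of_eq ?_) ((div_le_iff₀' (by positivity : (0 : ℝ) < (n + 1) ^ 2)).2 h5)
      have hd' : (n : ℝ) = M.card + (d + 1) := by exact_mod_cast hd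
      rw [hU, pow_succ (4 : ℝ), Nat.factorial_succ n, Nat.factorial_succ (d + 1),
        pow_succ (3 / 2 : ℝ)]
      push_cast
      have := Nat.factorial_pos n
      have := Nat.factorial_pos (d + 1)
      field_simp
      linear_combination (12 : ℝ) * hd'
    · rw [show n + 1 - M.card - 1 = 0 by omega, pow_zero, mul_one]
      exact product_bound (n + 1) K M hK hM

end Vale.Agent.P248
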