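import Vale.Agent.P248.Pyramid

/-
P248: volume product of symmetric bodies with `n - k` mirror hyperplanes is at least
`4 ^ n / (n! k!)`.

Pyramids from a point `x` over the sections by the mirror hyperplanes and by one more hyperplane
`t` give a point of the polar body; Steiner symmetrising the polar body along `t` turns its
projection into a section and keeps this point, and the pyramids from it close the induction.
-/

namespace Vale.Agent.P248

open MeasureTheory Set
open scoped ENNReal

variable {n : ℕ}

/-- Change of the sign of the coordinates in `A`. -/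
def negOn (A : Finset (Fin n)) (p : Fin n → ℝ) : Fin n → ℝ :=
  fun i => if i ∈ A then -p i else p i

/-- The polar body. -/
def pol (K : Set (Fin n → ℝ)) : Set (Fin n → ℝ) := {y | ∀ x ∈ K, dotProduct x y ≤ 1}

/-- An origin-symmetric convex body. -/
structure Good (K : Set (Fin n → ℝ)) : Prop where
  compact : IsCompact K
  convex : Convex ℝ K
  neg : ∀ x ∈ K, -x ∈ K
  mem_nhds : K ∈ nhds 0

/-- Invariance under the coordinate mirrors in `M`. -/
def Mirrored (M : Finset (Fin n)) (K : Set (Fin n → ℝ)) : Prop :=
  ∀ i ∈ M, ∀ p ∈ K, negOn {i} p ∈ K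

lemma negOn_negOn (A : Finset (Fin n)) (p : Fin n → ℝ) : negOn A (negOn A p) = p := by
  funext i; simp only [negOn]; split_ifs <;> simp

lemma negOn_preserving (A : Finset (Fin n)) :
    MeasurePreserving (negOn A) (volume : Measure (Fin n → ℝ)) volume := by
  have h : ∀ i, MeasurePreserving (fun s : ℝ => if i ∈ A then -s else s) volume volume := by
    intro i
    split_ifs
    · exact Measure.measurePreserving_neg _
    · exact MeasurePreserving.id _
  exact volume_preserving_pi h

lemma Mirrored.negOn_mem {M : Finset (Fin n)} {K : Set (Fin n → ℝ)} (h : Mirrored M K)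
    {A : Finset (Fin n)} (hA : A ⊆ M) {p : Fin n → ℝ} (hp : p ∈ K) : negOn A p ∈ K := by
  induction A using Finset.induction_on with
  | empty => exact (show negOn ∅ p = p from funext fun i => by simp [negOn]) ▸ hp
  | insert a s has ih =>
    obtain ⟨ha, hs⟩ := Finset.insert_subset_iff.1 hA
    have e : negOn (insert a s) p = negOn {a} (negOn s p) := by
      funext i
      simp only [negOn, Finset.mem_insert, Finset.mem_singleton]
      by_cases hi : i = a
      · subst hi; simp [has]
      · simp [hi]
    rw [e]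
    exact h a ha _ (ih hs)

/-- Positive part in the coordinates of `M`. -/
def orth (M : Finset (Fin n)) : Set (Fin n → ℝ) := {p | ∀ i ∈ M, 0 ≤ p i}

lemma isClosed_orth (M : Finset (Fin n)) : IsClosed (orth M) := by
  rw [show orth M = ⋂ i ∈ M, {p : Fin n → ℝ | 0 ≤ p i} by ext p; simp [orth]]
  exact isClosed_biInter fun i _ => isClosed_le continuous_const (continuous_apply i)

lemma convex_orth (M : Finset (Fin n)) : Convex ℝ (orth M) := by
  intro p hp q hq a b ha hb _ i hi
  simp only [Pi.add_apply, Pi.smul_apply, smul_eq_mul]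
  exact add_nonneg (mul_nonneg ha (hp i hi)) (mul_nonneg hb (hq i hi))

/-- A reflection halves an invariant set. -/
lemma halve {S : Set (Fin n → ℝ)} (hS : MeasurableSet S) {A : Finset (Fin n)} {a : Fin n}
    (ha : a ∈ A) (hinv : ∀ p ∈ S, negOn A p ∈ S) :
    volume S = 2 * volume (S ∩ {p | 0 ≤ p a}) := by
  have hz : volume {p : Fin n → ℝ | p a = 0} = 0 := volume_coord_zero a
  set P := {p : Fin n → ℝ | 0 ≤ p a}
  have hP : MeasurableSet P := measurableSet_le measurable_const (measurable_pi_apply a)
  have hpre : negOn A ⁻¹' (S ∩ P) = S ∩ {p | p a ≤ 0} := by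
    ext p
    have hinv' : negOn A p ∈ S ↔ p ∈ S :=
      ⟨fun h => negOn_negOn A p ▸ hinv _ h, hinv p⟩
    simp only [mem_preimage, mem_inter_iff, hinv', P, Set.mem_ofPred_eq, negOn, ha, if_true,
      Left.nonneg_neg_iff]
  have h1 : volume (S ∩ {p | p a ≤ 0}) = volume (S ∩ P) := by
    rw [← hpre]
    exact (negOn_preserving A).measure_preimage (hS.inter hP).nullMeasurableSet
  have h2 : volume (S ∩ {p | p a ≤ 0}) = volume (S \ P) := by
    refine le_antisymm ?_ (measure_mono fun p hp => ⟨hp.1, show p a ≤ 0 from le_of_lt (not_le.1 hp.2)⟩)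
    refine (measure_mono (t := (S \ P) ∪ {p | p a = 0}) fun p hp => ?_).trans
      ((measure_union_le _ _).trans (by simp [hz]))
    rcases (show p a ≤ 0 from hp.2).eq_or_lt with h | h
    · exact Or.inr h
    · exact Or.inl ⟨hp.1, fun hc => absurd (show 0 ≤ p a from hc) (not_le.2 h)⟩
  rw [← measure_inter_add_sdiff (μ := volume) S hP, ← h2, h1, two_mul]

/-- The mirrors cut off the positive part. -/
lemma split_mirrors {K : Set (Fin n → ℝ)} (hK : MeasurableSet K) (M : Finset (Fin n))
    (h : Mirrored M K) : volume K = 2 ^ M.card * volume (K ∩ orth M) := by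
  induction M using Finset.induction_on with
  | empty => simp [orth]
  | insert a s has ih =>
    have hs : Mirrored s K := fun i hi => h i (Finset.mem_insert_of_mem hi)
    have e : orth (insert a s) = orth s ∩ {p : Fin n → ℝ | 0 ≤ p a} := by
      ext p; simp [orth, and_comm]
    have hh := halve (hK.inter (isClosed_orth s).measurableSet) (Finset.mem_singleton_self a)
      (fun p hp => ⟨h a (Finset.mem_insert_self a s) p hp.1, fun i hi => by
        have : i ≠ a := fun hc => has (hc ▸ hi)
        simpa [negOn, this] using hp.2 i hi⟩)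
    rw [ih hs, hh, e, ← inter_assoc, Finset.card_insert_of_notMem has, pow_succ, mul_assoc]

/-- One more halving by any other coordinate. -/
lemma split_extra {K : Set (Fin n → ℝ)} (hK : MeasurableSet K) (hneg : ∀ p ∈ K, -p ∈ K)
    {M : Finset (Fin n)} (h : Mirrored M K) {t : Fin n} (ht : t ∉ M) :
    volume.real K = 2 ^ (M.card + 1) * volume.real (K ∩ orth (insert t M)) := by
  have e : orth (insert t M) = orth M ∩ {p : Fin n → ℝ | 0 ≤ p t} := by
    ext p; simp [orth, and_comm]
  have hc : negOn Mᶜ = fun p : Fin n → ℝ => -negOn M p := by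
    funext p i; by_cases hi : i ∈ M <;> simp [negOn, hi]
  have hh := halve (hK.inter (isClosed_orth M).measurableSet) (A := Mᶜ) (a := t) (by simpa)
    (fun p hp => ⟨hc ▸ hneg _ (h.negOn_mem subset_rfl hp.1), fun i hi => by
      simpa [negOn, hi] using hp.2 i hi⟩)
  rw [measureReal_def, measureReal_def, split_mirrors hK M h, hh, e, ← inter_assoc,
    ENNReal.toReal_mul, ENNReal.toReal_mul, ENNReal.toReal_pow, ENNReal.toReal_ofNat]
  ring

/-- The indices seen in the hyperplane `i`. -/
def below (i : Fin (n + 1)) (M : Finset (Fin (n + 1))) : Finset (Fin n) :=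
  Finset.univ.filter fun j => i.succAbove j ∈ M

lemma image_below (i : Fin (n + 1)) (M : Finset (Fin (n + 1))) :
    (below i M).image i.succAbove = M.erase i := by
  ext j
  simp only [below, Finset.mem_image, Finset.mem_filter, Finset.mem_univ, true_and,
    Finset.mem_erase]
  constructor
  · rintro ⟨l, hl, rfl⟩; exact ⟨Fin.succAbove_ne _ _, hl⟩
  · rintro ⟨hj, hM⟩
    obtain ⟨l, rfl⟩ := Fin.exists_succAbove_eq hj
    exact ⟨l, hM, rfl⟩

lemma card_below (i : Fin (n + 1)) (M : Finset (Fin (n + 1))) :
    (below i M).card = (M.erase i).card := by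
  rw [← image_below i M, Finset.card_image_of_injective _ Fin.succAbove_right_injective]

lemma negOn_insertNth (i : Fin (n + 1)) (j : Fin n) (f : Fin n → ℝ) :
    negOn {i.succAbove j} (i.insertNth 0 f) = i.insertNth 0 (negOn {j} f) := by
  refine Fin.eq_insertNth_iff.2 ⟨?_, ?_⟩
  · simp [negOn, (Fin.succAbove_ne i j).symm]
  · funext l
    simp [negOn, Fin.removeNth]

lemma Mirrored.sec {M : Finset (Fin (n + 1))} {K : Set (Fin (n + 1) → ℝ)} (h : Mirrored M K)
    (i : Fin (n + 1)) : Mirrored (below i M) (sec i K) := by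
  intro j hj f hf
  have := h _ (by simpa [below] using hj) _ hf
  rwa [negOn_insertNth] at this

lemma insertNth_neg (i : Fin (n + 1)) (f : Fin n → ℝ) :
    (i.insertNth 0 (-f) : Fin (n + 1) → ℝ) = -i.insertNth 0 f := by
  refine Fin.insertNth_eq_iff.2 ⟨by simp, ?_⟩
  funext l; simp [Fin.removeNth]

lemma insertNth_comb (i : Fin (n + 1)) (f g : Fin n → ℝ) (a b : ℝ) :
    (i.insertNth 0 (a • f + b • g) : Fin (n + 1) → ℝ)
      = a • i.insertNth 0 f + b • i.insertNth 0 g := by
  refine Fin.insertNth_eq_iff.2 ⟨by simp, ?_⟩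
  funext l; simp [Fin.removeNth]

lemma sec_orth (i : Fin (n + 1)) (A : Finset (Fin (n + 1))) (K : Set (Fin (n + 1) → ℝ)) :
    sec i (K ∩ orth A) = sec i K ∩ orth (below i A) := by
  ext f
  simp only [mem_sec, mem_inter_iff, orth, Set.mem_ofPred_eq, and_congr_right_iff, below,
    Finset.mem_filter, Finset.mem_univ, true_and]
  intro _
  simp [Fin.forall_iff_succAbove i]

lemma Good.sec {K : Set (Fin (n + 1) → ℝ)} (h : Good K) (i : Fin (n + 1)) : Good (sec i K) := by
  refine ⟨isCompact_sec h.compact, ?_, fun f hf => ?_, ?_⟩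
  · intro f hf g hg a b ha hb hab
    rw [mem_sec, insertNth_comb]
    exact h.convex hf hg ha hb hab
  · rw [mem_sec, insertNth_neg]
    exact h.neg _ hf
  · refine (continuous_insertNth' i 0).continuousAt.preimage_mem_nhds ?_
    rw [show (i.insertNth 0 (0 : Fin n → ℝ) : Fin (n + 1) → ℝ) = 0 from
      Fin.insertNth_eq_iff.2 ⟨rfl, rfl⟩]
    exact h.mem_nhds

/-- Pyramids over the mirror sections and one further section. -/
theorem pyramid_sym {K : Set (Fin (n + 1) → ℝ)} (hK : IsCompact K) (hconv : Convex ℝ K)
    (hneg : ∀ p ∈ K, -p ∈ K) {M : Finset (Fin (n + 1))} (hM : Mirrored M K) {t : Fin (n + 1)}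
    (ht : t ∉ M) {x : Fin (n + 1) → ℝ} (hx : x ∈ K) :
    2 * ∑ i ∈ insert t M, |x i| * volume.real (sec i K) ≤ (n + 1) * volume.real K := by
  classical
  obtain ⟨x', hx', habs, hxn⟩ : ∃ x' ∈ K, (∀ i, |x' i| = |x i|) ∧ 0 ≤ x' t := by
    rcases le_total 0 (x t) with h | h
    · exact ⟨x, hx, fun _ => rfl, h⟩
    · exact ⟨-x, hneg x hx, fun i => by simp, by simpa using h⟩
  set A := M.filter fun i => x' i < 0
  have hx'' := hM.negOn_mem (A := A) (Finset.filter_subset _ _) hx'
  set x'' := negOn A x'
  have hval : ∀ i ∈ insert t M, x'' i = |x i| := by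
    intro i hi
    rw [← habs i]
    rcases Finset.mem_insert.1 hi with rfl | hiM
    · simp [x'', A, negOn, ht, abs_of_nonneg hxn]
    · by_cases hneg' : x' i < 0
      · simp [x'', A, negOn, hiM, hneg', abs_of_neg hneg']
      · simp [x'', A, negOn, hneg', abs_of_nonneg (not_lt.1 hneg')]
  have hp := pyramid (hK.inter_right (isClosed_orth _)) (hconv.inter (convex_orth _))
    (insert t M) (fun p hp i hi => hp.2 i hi)
    (x := x'') ⟨hx'', fun i hi => hval i hi ▸ abs_nonneg _⟩
  have hvK := split_extra hK.isClosed.measurableSet hneg hM ht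
  have hm : ∀ i, MeasurableSet (sec i K) := fun i => (isCompact_sec hK).isClosed.measurableSet
  have hface : ∀ i ∈ insert t M,
      volume.real (sec i K) = 2 ^ M.card * volume.real (sec i (K ∩ orth (insert t M))) := by
    intro i hi
    rw [sec_orth]
    rcases Finset.mem_insert.1 hi with rfl | hiM
    · have e : below i (insert i M) = below i M := by
        ext j; simp [below, Fin.succAbove_ne]
      rw [e, measureReal_def, measureReal_def, split_mirrors (hm i) _ (hM.sec i),
        ENNReal.toReal_mul, ENNReal.toReal_pow, ENNReal.toReal_ofNat, card_below,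
        Finset.erase_eq_of_notMem ht]
    · obtain ⟨t', rfl⟩ := Fin.exists_succAbove_eq (show t ≠ i from fun h => ht (h ▸ hiM))
      have e : below i (insert (i.succAbove t') M) = insert t' (below i M) := by
        ext j; simp [below, Fin.succAbove_right_inj]
      have ht' : t' ∉ below i M := by simpa [below] using ht
      rw [e, split_extra (hm i) (fun f hf => by rw [mem_sec, insertNth_neg]; exact hneg _ hf)
        (hM.sec i) ht', card_below, Finset.card_erase_add_one hiM]
  calc 2 * ∑ i ∈ insert t M, |x i| * volume.real (sec i K)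
      = 2 ^ (M.card + 1)
          * ∑ i ∈ insert t M, x'' i * volume.real (sec i (K ∩ orth (insert t M))) := by
        rw [Finset.mul_sum, Finset.mul_sum]
        refine Finset.sum_congr rfl fun i hi => ?_
        rw [hface i hi, hval i hi, pow_succ]; ring
    _ ≤ 2 ^ (M.card + 1) * ((n + 1) * volume.real (K ∩ orth (insert t M))) :=
        mul_le_mul_of_nonneg_left hp (by positivity)
    _ = (n + 1) * volume.real K := by rw [hvK]; ring

/-- Steiner symmetrisation along the coordinate `t`. -/
def steiner (t : Fin (n + 1)) (L : Set (Fin (n + 1) → ℝ)) : Set (Fin (n + 1) → ℝ) :=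
  {p | ∃ a b, Function.update p t a ∈ L ∧ Function.update p t b ∈ L ∧ p t = (a - b) / 2}

lemma isCompact_steiner {t : Fin (n + 1)} {L : Set (Fin (n + 1) → ℝ)} (hL : IsCompact L) :
    IsCompact (steiner t L) := by
  classical
  set D := (L ×ˢ L) ∩ {q | ∀ i, i ≠ t → q.1 i = q.2 i}
  have hD : IsCompact D := (hL.prod hL).inter_right (by
    rw [show {q : (Fin (n + 1) → ℝ) × (Fin (n + 1) → ℝ) | ∀ i, i ≠ t → q.1 i = q.2 i}
      = ⋂ i, ⋂ (_ : i ≠ t), {q | q.1 i = q.2 i} by ext q; simp]
    exact isClosed_iInter fun i => isClosed_iInter fun _ =>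
      isClosed_eq (by fun_prop) (by fun_prop))
  convert hD.image (f := fun q : (Fin (n + 1) → ℝ) × (Fin (n + 1) → ℝ) =>
    Function.update q.1 t ((q.1 t - q.2 t) / 2))
    ((continuous_fst).update t (by fun_prop)) using 1
  ext p
  constructor
  · rintro ⟨a, b, ha, hb, e⟩
    refine ⟨(Function.update p t a, Function.update p t b), ⟨⟨ha, hb⟩, fun i hi => by simp [hi]⟩, ?_⟩
    simp [← e]
  · rintro ⟨⟨u, w⟩, ⟨⟨hu, hw⟩, huw⟩, rfl⟩
    refine ⟨u t, w t, ?_, ?_, by simp⟩
    · simpa using hu
    · convert hw using 1
      funext i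
      by_cases hi : i = t
      · subst hi; simp
      · have := huw i hi
        simp only at this
        simp [hi, this]

lemma convex_steiner {t : Fin (n + 1)} {L : Set (Fin (n + 1) → ℝ)} (hL : Convex ℝ L) :
    Convex ℝ (steiner t L) := by
  rintro p ⟨a, b, ha, hb, e⟩ q ⟨a', b', ha', hb', e'⟩ u v hu hv huv
  refine ⟨u * a + v * a', u * b + v * b', ?_, ?_, ?_⟩
  · convert hL ha ha' hu hv huv using 1
    funext i; by_cases hi : i = t
    · subst hi; simp
    · simp [hi]
  · convert hL hb hb' hu hv huv using 1
    funext i; by_cases hi : i = t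
    · subst hi; simp
    · simp [hi]
  · simp [e, e']; ring

lemma neg_steiner {t : Fin (n + 1)} {L : Set (Fin (n + 1) → ℝ)} (hL : ∀ p ∈ L, -p ∈ L) :
    ∀ p ∈ steiner t L, -p ∈ steiner t L := by
  rintro p ⟨a, b, ha, hb, e⟩
  refine ⟨-a, -b, ?_, ?_, by simp [e]; ring⟩
  · convert hL _ ha using 1
    funext i; by_cases hi : i = t
    · subst hi; simp
    · simp [hi]
  · convert hL _ hb using 1
    funext i; by_cases hi : i = t
    · subst hi; simp
    · simp [hi]

lemma negOn_update {t i : Fin (n + 1)} (h : i ≠ t) (p : Fin (n + 1) → ℝ) (a : ℝ) :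
    Function.update (negOn {i} p) t a = negOn {i} (Function.update p t a) := by
  funext j; by_cases hj : j = t
  · subst hj; simp [negOn, Ne.symm h]
  · simp [negOn, hj]

lemma Mirrored.steiner {M : Finset (Fin (n + 1))} {t : Fin (n + 1)} (ht : t ∉ M)
    {L : Set (Fin (n + 1) → ℝ)} (h : Mirrored M L) : Mirrored M (steiner t L) := by
  rintro i hi p ⟨a, b, ha, hb, e⟩
  have hit : i ≠ t := fun hc => ht (hc ▸ hi)
  refine ⟨a, b, ?_, ?_, ?_⟩
  · rw [negOn_update hit]; exact h i hi _ ha
  · rw [negOn_update hit]; exact h i hi _ hb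
  · simp [negOn, Ne.symm hit, e]

/-- Symmetrisation preserves the volume. -/
lemma volume_steiner (t : Fin (n + 1)) {L : Set (Fin (n + 1) → ℝ)} (hL : IsCompact L)
    (hconv : Convex ℝ L) : volume (Vale.Agent.P248.steiner t L) = volume L := by
  have hsymm : ∀ {S : Set (Fin (n + 1) → ℝ)}, MeasurableSet S →
      volume S = ∫⁻ f : Fin n → ℝ, volume {c : ℝ | t.insertNth c f ∈ S} := by
    intro S hS
    set e := MeasurableEquiv.piFinSuccAbove (fun _ : Fin (n + 1) => ℝ) t with he
    have h := (volume_preserving_piFinSuccAbove (fun _ : Fin (n + 1) => ℝ) t).symm e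
    rw [← h.measure_preimage hS.nullMeasurableSet, Measure.volume_eq_prod,
      Measure.prod_apply_symm (e.symm.measurable hS)]
    rfl
  rw [hsymm (isCompact_steiner hL).isClosed.measurableSet, hsymm hL.isClosed.measurableSet]
  refine lintegral_congr fun f => ?_
  have hupd : ∀ c a : ℝ, Function.update (t.insertNth c f : Fin (n + 1) → ℝ) t a
      = t.insertNth a f := fun c a => by
    refine Fin.eq_insertNth_iff.2 ⟨by simp, ?_⟩
    funext l; simp [Fin.removeNth, Fin.succAbove_ne]
  set F := {c : ℝ | t.insertNth c f ∈ L} with hF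
  have hS : {c : ℝ | t.insertNth c f ∈ Vale.Agent.P248.steiner t L}
      = {c | ∃ a ∈ F, ∃ b ∈ F, c = (a - b) / 2} := by
    ext c
    simp only [Vale.Agent.P248.steiner, Set.mem_ofPred_eq, hupd, Fin.insertNth_apply_same, hF]
    tauto
  rw [hS]
  rcases F.eq_empty_or_nonempty with h0 | hne
  · simp [h0]
  have hFc : IsCompact F := (hL.image (continuous_apply t)).of_isClosed_subset
    (hL.isClosed.preimage (continuous_id.finInsertNth t continuous_const))
    (fun c hc => ⟨_, hc, by simp⟩)
  have hFx : Convex ℝ F := by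
    intro a ha b hb u v hu hv huv
    have e : (t.insertNth (u • a + v • b) f : Fin (n + 1) → ℝ)
        = u • t.insertNth a f + v • t.insertNth b f := by
      refine Fin.insertNth_eq_iff.2 ⟨by simp, ?_⟩
      funext l
      simp only [Fin.removeNth, Pi.add_apply, Pi.smul_apply, Fin.insertNth_apply_succAbove,
        smul_eq_mul]
      linear_combination -(f l) * huv
    simp only [hF, Set.mem_ofPred_eq, e]
    exact hconv ha hb hu hv huv
  have hI := eq_Icc_of_connected_compact (hFx.isConnected hne) hFc
  set lo := sInf F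
  set hi' := sSup F
  have hlh : lo ≤ hi' := csInf_le_csSup hne hFc.bddBelow hFc.bddAbove
  have hset : {c | ∃ a ∈ F, ∃ b ∈ F, c = (a - b) / 2} = Icc (-((hi' - lo) / 2)) ((hi' - lo) / 2) := by
    ext c
    rw [hI]
    simp only [Set.mem_ofPred_eq, mem_Icc]
    constructor
    · rintro ⟨a, ⟨a1, a2⟩, b, ⟨b1, b2⟩, rfl⟩; constructor <;> linarith
    · rintro ⟨c1, c2⟩
      exact ⟨(lo + hi') / 2 + c, ⟨by linarith, by linarith⟩, (lo + hi') / 2 - c,
        ⟨by linarith, by linarith⟩, by ring⟩
  rw [hset, hI, Real.volume_Icc, Real.volume_Icc]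
  congr 1; ring

lemma sec_steiner_self (t : Fin (n + 1)) (L : Set (Fin (n + 1) → ℝ)) :
    sec t (Vale.Agent.P248.steiner t L) = t.removeNth '' L := by
  ext f
  simp only [mem_sec, Vale.Agent.P248.steiner, Set.mem_ofPred_eq, Fin.insertNth_apply_same,
    mem_image]
  constructor
  · rintro ⟨a, b, ha, -, -⟩
    exact ⟨_, ha, by funext l; simp [Fin.removeNth, Fin.succAbove_ne]⟩
  · rintro ⟨p, hp, rfl⟩
    have : Function.update (t.insertNth 0 (t.removeNth p) : Fin (n + 1) → ℝ) t (p t) = p := by
      funext i
      refine Fin.succAboveCases t ?_ (fun l => ?_) i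
      · simp
      · simp [Fin.removeNth, Fin.succAbove_ne]
    exact ⟨p t, p t, by rwa [this], by rwa [this], by simp⟩

lemma sec_steiner {i : Fin (n + 2)} {t : Fin (n + 1)} (L : Set (Fin (n + 2) → ℝ)) :
    sec i (Vale.Agent.P248.steiner (i.succAbove t) L) = Vale.Agent.P248.steiner t (sec i L) := by
  ext f
  have e : ∀ a : ℝ, Function.update (i.insertNth 0 f : Fin (n + 2) → ℝ) (i.succAbove t) a
      = i.insertNth 0 (Function.update f t a) := fun a => by
    refine Fin.eq_insertNth_iff.2 ⟨by simp [(Fin.succAbove_ne i t).symm], ?_⟩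
    funext l; by_cases hl : l = t
    · subst hl; simp [Fin.removeNth]
    · simp [Fin.removeNth, hl]
  have e' : (i.insertNth 0 f : Fin (n + 2) → ℝ) (i.succAbove t) = f t :=
    Fin.insertNth_apply_succAbove _ _ _ _
  simp only [mem_sec, Vale.Agent.P248.steiner, Set.mem_ofPred_eq, e, e']

lemma volume_sec_steiner {i t : Fin (n + 1)} (hit : t ≠ i) {L : Set (Fin (n + 1) → ℝ)}
    (hL : IsCompact L) (hconv : Convex ℝ L) :
    volume (sec i (Vale.Agent.P248.steiner t L)) = volume (sec i L) := by
  cases n with
  | zero => exact absurd (Fin.ext (by omega)) hit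
  | succ m =>
    obtain ⟨t', rfl⟩ := Fin.exists_succAbove_eq hit
    rw [sec_steiner, volume_steiner t' (isCompact_sec hL)]
    intro f hf g hg a b ha hb hab
    rw [mem_sec, insertNth_comb]
    exact hconv hf hg ha hb hab

lemma negOn_dot (A : Finset (Fin n)) (x y : Fin n → ℝ) :
    dotProduct x (negOn A y) = dotProduct (negOn A x) y :=
  Finset.sum_congr rfl fun i _ => by simp only [negOn]; split_ifs <;> ring

lemma Mirrored.pol {M : Finset (Fin n)} {K : Set (Fin n → ℝ)} (h : Mirrored M K) :
    Mirrored M (pol K) := by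
  intro i hi y hy x hx
  rw [negOn_dot]
  exact hy _ (h i hi x hx)

lemma Good.pol {K : Set (Fin n → ℝ)} (h : Good K) : Good (pol K) := by
  obtain ⟨r, hr, hball⟩ := Metric.nhds_basis_closedBall.mem_iff.1 h.mem_nhds
  obtain ⟨R, hR⟩ := h.compact.isBounded.subset_closedBall 0
  have hbd : Vale.Agent.P248.pol K ⊆ Metric.closedBall 0 (1 / r) := by
    intro y hy
    rw [Metric.mem_closedBall, dist_zero_right, pi_norm_le_iff_of_nonneg (by positivity)]
    intro i
    have key : ∀ s : ℝ, |s| = 1 → s * y i ≤ 1 / r := by
      intro s hs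
      have hmem : Pi.single i (s * r) ∈ K := hball (by
        rw [Metric.mem_closedBall, dist_zero_right, Pi.norm_single, Real.norm_eq_abs, abs_mul, hs,
          one_mul, abs_of_pos hr])
      have := hy _ hmem
      rw [single_dotProduct] at this
      rw [le_div_iff₀ hr]
      linarith
    rw [Real.norm_eq_abs, abs_le]
    have a := key 1 (by simp)
    have b := key (-1) (by simp)
    exact ⟨by linarith, by linarith⟩
  have hcl : IsClosed (Vale.Agent.P248.pol K) := by
    rw [show Vale.Agent.P248.pol K = ⋂ x ∈ K, {y | dotProduct x y ≤ 1} by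
      ext y; simp [Vale.Agent.P248.pol]]
    exact isClosed_biInter fun x _ => isClosed_le
      (f := fun y : Fin n → ℝ => dotProduct x y) (by unfold dotProduct; fun_prop)
      continuous_const
  refine ⟨(isCompact_closedBall _ _).of_isClosed_subset hcl hbd, ?_, fun y hy x hx => ?_, ?_⟩
  · intro p hp q hq a b ha hb hab x hx
    rw [dotProduct_add, dotProduct_smul, dotProduct_smul]
    calc a * dotProduct x p + b * dotProduct x q ≤ a * 1 + b * 1 := by
          gcongr
          · exact hp x hx
          · exact hq x hx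
      _ = 1 := by linarith
  · have := hy _ (h.neg x hx)
    rw [neg_dotProduct] at this
    rwa [dotProduct_neg]
  · set R' := max R 1 with hR'
    refine Filter.mem_of_superset (Metric.closedBall_mem_nhds 0
      (show (0 : ℝ) < 1 / ((n + 1) * R') by positivity)) fun y hy x hx => ?_
    rw [Metric.mem_closedBall, dist_zero_right] at hy
    have hxn : ‖x‖ ≤ R' := (mem_closedBall_zero_iff.1 (hR hx)).trans (le_max_left _ _)
    calc dotProduct x y = ∑ i, x i * y i := rfl
      _ ≤ ∑ _i : Fin n, R' * (1 / ((n + 1) * R')) := Finset.sum_le_sum fun i _ => by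
          refine (le_abs_self _).trans ?_
          rw [abs_mul]
          exact mul_le_mul ((norm_le_pi_norm x i).trans hxn) ((norm_le_pi_norm y i).trans hy)
            (abs_nonneg _) (by positivity)
      _ = (n : ℝ) / (n + 1) := by
          rw [Finset.sum_const, Finset.card_univ, Fintype.card_fin, nsmul_eq_mul]
          have : (0 : ℝ) < R' := lt_of_lt_of_le one_pos (le_max_right _ _)
          field_simp
      _ ≤ 1 := (div_le_one (by positivity)).2 (by linarith)

lemma dot_insertNth (i : Fin (n + 1)) (p : Fin (n + 1) → ℝ) (a : ℝ) (g : Fin n → ℝ) :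
    dotProduct p (i.insertNth a g) = p i * a + dotProduct (i.removeNth p) g := by
  simp [dotProduct, Fin.sum_univ_succAbove _ i, Fin.removeNth]

/-- The polar of a mirror section is a section of the polar. -/
lemma pol_sec_subset {K : Set (Fin (n + 1) → ℝ)} (hK : Convex ℝ K) {i : Fin (n + 1)}
    (hi : ∀ p ∈ K, negOn {i} p ∈ K) :
    pol (sec i K) ⊆ sec i (pol K) := by
  intro g hg p hp
  have hmem : i.removeNth p ∈ sec i K := by
    rw [mem_sec]
    convert hK hp (hi p hp) (by norm_num : (0 : ℝ) ≤ 1 / 2) (by norm_num : (0 : ℝ) ≤ 1 / 2)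
      (by norm_num) using 1
    funext j
    refine Fin.succAboveCases i ?_ (fun l => ?_) j
    · simp [negOn]
    · simp [negOn, Fin.removeNth, Fin.succAbove_ne]; ring
  rw [dot_insertNth, mul_zero, zero_add]
  exact hg _ hmem

/-- The polar of a section lies in the projection of the polar. -/
lemma pol_sec_proj {K : Set (Fin (n + 1) → ℝ)} (hK : Good K) (t : Fin (n + 1)) :
    pol (sec t K) ⊆ t.removeNth '' pol K := by
  intro g hg
  set ψ : (Fin (n + 1) → ℝ) → ℝ := fun p => dotProduct (t.removeNth p) g with hψ
  have key : ∀ u ∈ K, ∀ w ∈ K, 0 < u t → w t < 0 →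
      (ψ w - 1) / (-w t) ≤ (1 - ψ u) / u t := by
    intro u hu w hw hut hwt
    set l := -w t / (u t - w t) with hl
    set l' := u t / (u t - w t) with hl'
    have hd : 0 < u t - w t := by linarith
    have hsum : l + l' = 1 := by rw [hl, hl']; field_simp; ring
    have hz : t.removeNth (l • u + l' • w) ∈ sec t K := by
      rw [mem_sec]
      convert hK.convex hu hw (div_nonneg (by linarith) hd.le : 0 ≤ l)
        (div_nonneg hut.le hd.le : 0 ≤ l') hsum using 1
      refine Fin.insertNth_eq_iff.2 ⟨?_, rfl⟩
      simp [hl, hl']; field_simp; ring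
    have h := hg _ hz
    have e : dotProduct (t.removeNth (l • u + l' • w)) g = l * ψ u + l' * ψ w := by
      simp only [hψ, dotProduct, Fin.removeNth, Pi.add_apply, Pi.smul_apply, smul_eq_mul,
        Finset.mul_sum, ← Finset.sum_add_distrib]
      exact Finset.sum_congr rfl fun i _ => by ring
    rw [e, hl, hl'] at h
    have h' : -w t * ψ u + u t * ψ w ≤ u t - w t := by
      have := mul_le_mul_of_nonneg_right h hd.le
      field_simp at this
      linarith
    rw [div_le_div_iff₀ (by linarith) hut]
    nlinarith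
  obtain ⟨r, hr, hball⟩ := Metric.nhds_basis_closedBall.mem_iff.1 hK.mem_nhds
  have hax : ∀ s : ℝ, |s| = r → Pi.single t s ∈ K := fun s hs => hball (by
    rw [Metric.mem_closedBall, dist_zero_right, Pi.norm_single, Real.norm_eq_abs, hs])
  have hp := hax r (abs_of_pos hr)
  have hm := hax (-r) (by rw [abs_neg, abs_of_pos hr])
  set S := (fun w => (ψ w - 1) / (-w t)) '' {w ∈ K | w t < 0} with hS
  have hSne : S.Nonempty := ⟨_, ⟨_, ⟨hm, by simp [hr]⟩, rfl⟩⟩
  have hSb : BddAbove S := ⟨_, by
    rintro _ ⟨w, ⟨hw, hwt⟩, rfl⟩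
    exact key _ hp w hw (by simp [hr]) hwt⟩
  refine ⟨t.insertNth (sSup S) g, fun p hp' => ?_, Fin.removeNth_insertNth _ _ _⟩
  rw [dot_insertNth]
  rcases lt_trichotomy (p t) 0 with h | h | h
  · have := le_csSup hSb ⟨p, ⟨hp', h⟩, rfl⟩
    rw [div_le_iff₀ (by linarith)] at this
    linarith
  · rw [h, zero_mul, zero_add]
    refine hg _ ?_
    rw [mem_sec]
    convert hp' using 1
    exact Fin.insertNth_eq_iff.2 ⟨h.symm, rfl⟩
  · have : sSup S ≤ (1 - ψ p) / p t := csSup_le hSne (by
      rintro _ ⟨w, ⟨hw, hwt⟩, rfl⟩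
      exact key p hp' w hw h hwt)
    rw [le_div_iff₀ h] at this
    linarith

/-- The step of the induction. -/
lemma product_step {K : Set (Fin (n + 1) → ℝ)} (hK : Good K) {M : Finset (Fin (n + 1))}
    (hM : Mirrored M K) {t : Fin (n + 1)} (ht : t ∉ M) :
    4 * ((∑ i ∈ M, volume.real (sec i K) * volume.real (pol (sec i K)))
      + volume.real (sec t K) * volume.real (pol (sec t K)))
      ≤ (n + 1) ^ 2 * (volume.real K * volume.real (pol K)) := by
  set L := pol K with hL
  have hLg := hK.pol
  set V := volume.real K with hV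
  have hVpos : 0 < V := ENNReal.toReal_pos
    (Measure.measure_pos_of_mem_nhds volume hK.mem_nhds).ne' hK.compact.measure_lt_top.ne
  set c : ℝ := 2 / ((n + 1) * V) with hc
  have hc0 : 0 ≤ c := by positivity
  set y : Fin (n + 1) → ℝ :=
    fun i => if i ∈ insert t M then c * volume.real (sec i K) else 0 with hy
  have hy0 : ∀ i, 0 ≤ y i := fun i => by
    simp only [hy]; split_ifs
    · exact mul_nonneg hc0 measureReal_nonneg
    · exact le_rfl
  have hyL : y ∈ L := by
    intro x hx
    have h := pyramid_sym hK.compact hK.convex hK.neg hM ht hx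
    calc dotProduct x y = ∑ i ∈ insert t M, x i * (c * volume.real (sec i K)) := by
          rw [dotProduct, ← Finset.sum_subset (Finset.subset_univ (insert t M))
            (fun i _ hi => by simp only [hy, hi, if_false, mul_zero])]
          exact Finset.sum_congr rfl fun i hi => by simp only [hy, hi, if_true]
      _ ≤ c / 2 * (2 * ∑ i ∈ insert t M, |x i| * volume.real (sec i K)) := by
          rw [Finset.mul_sum, Finset.mul_sum]
          refine Finset.sum_le_sum fun i _ => ?_
          have := mul_le_mul_of_nonneg_right (le_abs_self (x i))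
            (mul_nonneg hc0 (measureReal_nonneg (μ := volume) (s := sec i K)))
          linarith
      _ ≤ c / 2 * ((n + 1) * V) := mul_le_mul_of_nonneg_left h (by positivity)
      _ = 1 := by rw [hc]; field_simp
  set S := Vale.Agent.P248.steiner t L with hS
  have hyS : y ∈ S := by
    refine ⟨y t, -y t, by simpa using hyL, ?_, by ring⟩
    convert (hM.pol).negOn_mem (subset_rfl : M ⊆ M) (hLg.neg y hyL) using 1
    funext i
    by_cases hi : i = t
    · subst hi; simp [negOn, ht]
    · by_cases hiM : i ∈ M <;> simp [negOn, hi, hiM, hy]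
  have h2 := pyramid_sym (isCompact_steiner hLg.compact) (convex_steiner hLg.convex)
    (neg_steiner hLg.neg) (Mirrored.steiner ht hM.pol) ht hyS
  rw [Finset.sum_insert ht] at h2
  have hVS : volume.real S = volume.real L := by
    rw [measureReal_def, measureReal_def, hS, volume_steiner t hLg.compact hLg.convex]
  rw [hVS] at h2
  have hlow : c * ((∑ i ∈ M, volume.real (sec i K) * volume.real (pol (sec i K)))
      + volume.real (sec t K) * volume.real (pol (sec t K)))
      ≤ |y t| * volume.real (sec t S) + ∑ i ∈ M, |y i| * volume.real (sec i S) := by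
    rw [mul_add, add_comm, Finset.mul_sum]
    refine add_le_add ?_ (Finset.sum_le_sum fun i hi => ?_)
    · rw [abs_of_nonneg (hy0 t)]
      simp only [hy, Finset.mem_insert_self, if_true, hS, sec_steiner_self, ← mul_assoc]
      refine mul_le_mul_of_nonneg_left ?_ (mul_nonneg hc0 measureReal_nonneg)
      exact measureReal_mono (pol_sec_proj hK t)
        (hLg.compact.image (continuous_removeNth' t)).measure_lt_top.ne
    · have hit : t ≠ i := fun h => ht (h ▸ hi)
      rw [abs_of_nonneg (hy0 i)]
      simp only [hy, Finset.mem_insert_of_mem hi, if_true, ← mul_assoc]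
      refine mul_le_mul_of_nonneg_left ?_ (mul_nonneg hc0 measureReal_nonneg)
      rw [measureReal_def, measureReal_def, hS, volume_sec_steiner hit hLg.compact hLg.convex]
      exact ENNReal.toReal_mono (isCompact_sec hLg.compact).measure_lt_top.ne
        (measure_mono (pol_sec_subset hK.convex (hM i hi)))
  have h3 := (mul_le_mul_of_nonneg_left hlow (by norm_num : (0 : ℝ) ≤ 2)).trans h2
  have h4 := mul_le_mul_of_nonneg_right h3 (by positivity : (0 : ℝ) ≤ (n + 1) * V)
  rw [hc] at h4
  field_simp at h4
  nlinarith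

/-- The volume product with `n - k` coordinate mirrors. -/
theorem product_bound : ∀ (n : ℕ) (K : Set (Fin n → ℝ)) (M : Finset (Fin n)), Good K →
    Mirrored M K →
    (4 : ℝ) ^ n / (n.factorial * (n - M.card).factorial)
      ≤ volume.real K * volume.real (pol K) := by
  intro n
  induction n with
  | zero =>
    intro K M hK _
    have hv : ∀ S : Set (Fin 0 → ℝ), (0 : Fin 0 → ℝ) ∈ S → volume.real S = 1 := fun S h => by
      rw [(Set.eq_univ_of_forall fun x => (Subsingleton.elim x 0).symm ▸ h : S = univ),
        measureReal_def,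
        show (volume : Measure (Fin 0 → ℝ)) univ = 1 by simp [volume_pi, Measure.pi_univ]]
      simp
    rw [hv K (mem_of_mem_nhds hK.mem_nhds), hv _ (mem_of_mem_nhds hK.pol.mem_nhds)]
    simp
  | succ n ih =>
    intro K M hK hM
    suffices key : ∀ (t : Fin (n + 1)) (M : Finset (Fin (n + 1))), t ∉ M → Mirrored M K →
        (4 : ℝ) ^ (n + 1) / ((n + 1).factorial * (n + 1 - M.card).factorial)
          ≤ volume.real K * volume.real (pol K) by
      by_cases hu : M = Finset.univ
      · have hM' : Mirrored (M.erase 0) K := fun i hi => hM i (Finset.mem_of_mem_erase hi)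
        have := key 0 (M.erase 0) (Finset.notMem_erase 0 M) hM'
        subst M
        simpa [Finset.card_erase_of_mem] using this
      · obtain ⟨t, ht⟩ := not_forall.1 fun h => hu (Finset.eq_univ_of_forall h)
        exact key t M ht hM
    intro t M ht hM
    have hmn : M.card ≤ n := by
      have := Finset.card_le_univ (insert t M)
      rw [Finset.card_insert_of_notMem ht, Fintype.card_fin] at this
      omega
    obtain ⟨d, hd⟩ : ∃ d, n = M.card + d := ⟨n - M.card, by omega⟩
    have hk : n + 1 - M.card = d + 1 := by omega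
    set U : ℝ := 4 ^ n / n.factorial with hU
    have hface : ∀ i ∈ M, U / (d + 1).factorial
        ≤ volume.real (sec i K) * volume.real (pol (sec i K)) := fun i hi => by
      have := ih (sec i K) (below i M) (hK.sec i) (hM.sec i)
      rw [card_below, Finset.card_erase_of_mem hi, show n - (M.card - 1) = d + 1 by
        have := Finset.card_pos.2 ⟨i, hi⟩; omega] at this
      rwa [hU, div_div]
    have htop : U / d.factorial ≤ volume.real (sec t K) * volume.real (pol (sec t K)) := by
      have := ih (sec t K) (below t M) (hK.sec t) (hM.sec t)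
      rw [card_below, Finset.erase_eq_of_notMem ht, show n - M.card = d by omega] at this
      rwa [hU, div_div]
    have hstep := product_step hK hM ht
    have hsum := Finset.sum_le_sum hface
    rw [Finset.sum_const, nsmul_eq_mul] at hsum
    have h5 : 4 * ((M.card : ℝ) * (U / (d + 1).factorial) + U / d.factorial)
        ≤ ((n : ℝ) + 1) ^ 2 * (volume.real K * volume.real (pol K)) := by linarith
    rw [hk]
    refine le_trans (le_of_eq ?_) ((div_le_iff₀' (by positivity : (0 : ℝ) < (n + 1) ^ 2)).2 h5)
    have hd' : (n : ℝ) = M.card + d := by exact_mod_cast hd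
    rw [hU, pow_succ, Nat.factorial_succ n, Nat.factorial_succ d]
    push_cast
    have := Nat.factorial_pos n
    have := Nat.factorial_pos d
    field_simp
    linear_combination hd'

end Vale.Agent.P248
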