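import Mathlib

/-
P248: the pyramid inequality for convex bodies in an orthant.
-/

namespace Vale.Agent.P248

open MeasureTheory Set
open scoped ENNReal Pointwise

variable {n : ℕ}

/-- The section by the coordinate hyperplane `i`. -/
def sec (i : Fin (n + 1)) (S : Set (Fin (n + 1) → ℝ)) : Set (Fin n → ℝ) :=
  {f | i.insertNth 0 f ∈ S}

@[simp] lemma mem_sec {i : Fin (n + 1)} {S : Set (Fin (n + 1) → ℝ)} {f : Fin n → ℝ} :
    f ∈ sec i S ↔ i.insertNth 0 f ∈ S := Iff.rfl

lemma continuous_insertNth' (i : Fin (n + 1)) (a : ℝ) :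
    Continuous fun f : Fin n → ℝ => (i.insertNth a f : Fin (n + 1) → ℝ) :=
  continuous_const.finInsertNth i continuous_id

lemma continuous_removeNth' (i : Fin (n + 1)) :
    Continuous fun p : Fin (n + 1) → ℝ => i.removeNth p :=
  continuous_pi fun j => continuous_apply (i.succAbove j)

lemma isCompact_sec {i : Fin (n + 1)} {S : Set (Fin (n + 1) → ℝ)} (hS : IsCompact S) :
    IsCompact (sec i S) :=
  (hS.image (continuous_removeNth' i)).of_isClosed_subset
    (hS.isClosed.preimage (continuous_insertNth' i 0))
    fun f hf => ⟨i.insertNth 0 f, hf, Fin.removeNth_insertNth _ _ _⟩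

/-- Fubini along one coordinate. -/
lemma volume_slices (i : Fin (n + 1)) {S : Set (Fin (n + 1) → ℝ)} (hS : MeasurableSet S) :
    volume S = ∫⁻ c, volume {f : Fin n → ℝ | i.insertNth c f ∈ S} := by
  set e := MeasurableEquiv.piFinSuccAbove (fun _ : Fin (n + 1) => ℝ) i with he
  have h := (volume_preserving_piFinSuccAbove (fun _ : Fin (n + 1) => ℝ) i).symm e
  rw [← h.measure_preimage hS.nullMeasurableSet, Measure.volume_eq_prod,
    Measure.prod_apply (e.symm.measurable hS)]
  rfl

lemma volume_coord_zero (j : Fin n) : volume {f : Fin n → ℝ | f j = 0} = 0 :=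
  Measure.pi_hyperplane (fun _ => (volume : Measure ℝ)) j 0

lemma lintegral_slope {x : ℝ} (hx : 0 < x) :
    ∫⁻ c in Ioo 0 x, ENNReal.ofReal ((1 - c / x) ^ n) = ENNReal.ofReal (x / (n + 1)) := by
  have hd : ∀ c ∈ uIcc 0 x, HasDerivAt (fun c => -(x / (n + 1)) * (1 - c / x) ^ (n + 1))
      ((1 - c / x) ^ n) c := by
    intro c _
    have h := ((((hasDerivAt_id c).div_const x).const_sub 1).pow (n + 1)).const_mul
      (-(x / (n + 1)))
    refine h.congr_deriv ?_
    simp only [id_eq, Nat.add_sub_cancel]
    push_cast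
    field_simp
  have hc : Continuous fun c : ℝ => (1 - c / x) ^ n := by fun_prop
  have hI := intervalIntegral.integral_eq_sub_of_hasDerivAt hd (hc.intervalIntegrable _ _)
  have hval : ∫ c in (0 : ℝ)..x, (1 - c / x) ^ n = x / (n + 1) := by
    rw [hI]; simp [hx.ne']
  rw [← hval, intervalIntegral.integral_of_le hx.le, integral_Ioc_eq_integral_Ioo,
    ofReal_integral_eq_lintegral_ofReal]
  · exact hc.integrableOn_Icc.mono_set Ioo_subset_Icc_self
  · filter_upwards [ae_restrict_mem measurableSet_Ioo] with c hc
    have : c / x ≤ 1 := (div_le_one hx).2 hc.2.le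
    exact pow_nonneg (sub_nonneg.2 this) n

/-- The pyramids from a point over the coordinate faces of a convex body in an orthant. -/
theorem pyramid {S : Set (Fin (n + 1) → ℝ)} (hS : IsCompact S) (hconv : Convex ℝ S)
    (M : Finset (Fin (n + 1))) (hpos : ∀ p ∈ S, ∀ i ∈ M, 0 ≤ p i)
    {x : Fin (n + 1) → ℝ} (hx : x ∈ S) :
    ∑ i ∈ M, x i * volume.real (sec i S) ≤ (n + 1) * volume.real S := by
  classical
  set M' := M.filter fun i => 0 < x i with hM'
  have hsum : ∑ i ∈ M, x i * volume.real (sec i S)
      = ∑ i ∈ M', x i * volume.real (sec i S) := by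
    refine (Finset.sum_filter_of_ne fun i hi hne => ?_).symm
    rcases (hpos x hx i hi).eq_or_lt with h | h
    · simp [← h] at hne
    · exact h
  set R : Fin (n + 1) → Set (Fin (n + 1) → ℝ) := fun i =>
    S ∩ ⋂ j ∈ M', {p | j ≠ i → p i * x j < p j * x i} with hR
  have hRm : ∀ i, MeasurableSet (R i) := fun i => by
    refine hS.isClosed.measurableSet.inter (M'.measurableSet_biInter fun j _ => ?_)
    by_cases hji : j = i
    · simp [hji]
    · simp only [ne_eq, hji, not_false_eq_true, forall_const]
      exact measurableSet_lt (by fun_prop) (by fun_prop)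
  have hdisj : Set.PairwiseDisjoint (↑M') R := by
    intro i hi j hj hij
    refine Set.disjoint_left.2 fun p hp hq => ?_
    have a := Set.mem_iInter₂.1 hp.2 j hj (Ne.symm hij)
    have b := Set.mem_iInter₂.1 hq.2 i hi hij
    exact lt_asymm a b
  have hle : ∀ i ∈ M',
      ENNReal.ofReal (x i / (n + 1)) * volume (sec i S) ≤ volume (R i) := by
    intro i hi
    have hxi : 0 < x i := (Finset.mem_filter.1 hi).2
    set E := {f ∈ sec i S | ∀ j, f j ≠ 0} with hE
    have hEv : volume E = volume (sec i S) := by
      refine le_antisymm (measure_mono fun f hf => hf.1) ?_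
      calc volume (sec i S) ≤ volume (E ∪ ⋃ j, {f : Fin n → ℝ | f j = 0}) :=
            measure_mono fun f hf => by
              by_cases h : ∀ j, f j ≠ 0
              · exact Or.inl ⟨hf, h⟩
              · push Not at h
                exact Or.inr (Set.mem_iUnion.2 h)
        _ ≤ volume E + 0 := (measure_union_le _ _).trans
              (add_le_add le_rfl (measure_iUnion_null volume_coord_zero).le)
        _ = volume E := add_zero _
    have hslice : ∀ c ∈ Ioo 0 (x i), ENNReal.ofReal ((1 - c / x i) ^ n) * volume (sec i S)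
        ≤ volume {f : Fin n → ℝ | i.insertNth c f ∈ R i} := by
      intro c hc
      set s := c / x i with hs
      have hs0 : 0 ≤ s := div_nonneg hc.1.le hxi.le
      have hs1 : s < 1 := (div_lt_one hxi).2 hc.2
      have hsub : (fun f => s • i.removeNth x + f) '' ((1 - s) • E)
          ⊆ {f : Fin n → ℝ | i.insertNth c f ∈ R i} := by
        rintro _ ⟨_, ⟨f, ⟨hf, hfne⟩, rfl⟩, rfl⟩
        have e : (i.insertNth c (s • i.removeNth x + (1 - s) • f) : Fin (n + 1) → ℝ)
            = s • x + (1 - s) • i.insertNth 0 f := by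
          refine Fin.insertNth_eq_iff.2 ⟨?_, ?_⟩
          · simp [hs, hxi.ne']
          · ext j; simp [Fin.removeNth]
        refine ⟨?_, Set.mem_iInter₂.2 fun j hj hji => ?_⟩
        · show _ ∈ S
          rw [e]
          exact hconv hx hf hs0 (sub_nonneg.2 hs1.le) (by ring)
        · obtain ⟨l, rfl⟩ := Fin.exists_succAbove_eq hji
          simp only [Fin.insertNth_apply_same, Fin.insertNth_apply_succAbove, Pi.add_apply,
            Pi.smul_apply, smul_eq_mul, Fin.removeNth]
          have h0 : 0 ≤ f l := by
            simpa using hpos _ hf _ (Finset.mem_filter.1 hj).1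
          have h1 : 0 < f l := h0.lt_of_ne (Ne.symm (hfne l))
          have h2 : c = s * x i := by rw [hs]; field_simp
          have h3 : 0 < (1 - s) * f l * x i := by have := sub_pos.2 hs1; positivity
          rw [h2]
          linarith
      refine le_trans (le_of_eq ?_) (measure_mono hsub)
      have himg : (fun f => s • i.removeNth x + f) '' ((1 - s) • E)
          = (fun f => -(s • i.removeNth x) + f) ⁻¹' ((1 - s) • E) := image_add_left
      rw [himg, measure_preimage_add, Measure.addHaar_smul, hEv, Module.finrank_pi,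
        Fintype.card_fin, abs_pow, abs_of_nonneg (sub_nonneg.2 hs1.le)]
    calc ENNReal.ofReal (x i / (n + 1)) * volume (sec i S)
        = ∫⁻ c in Ioo 0 (x i), ENNReal.ofReal ((1 - c / x i) ^ n) * volume (sec i S) := by
          rw [lintegral_mul_const _ (by fun_prop), lintegral_slope hxi]
      _ ≤ ∫⁻ c in Ioo 0 (x i), volume {f : Fin n → ℝ | i.insertNth c f ∈ R i} :=
          setLIntegral_mono' measurableSet_Ioo hslice
      _ ≤ ∫⁻ c, volume {f : Fin n → ℝ | i.insertNth c f ∈ R i} := setLIntegral_le_lintegral _ _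
      _ = volume (R i) := (volume_slices i (hRm i)).symm
  have hfin : ∀ i ∈ M', volume (R i) ≠ ⊤ := fun i _ =>
    ne_top_of_le_ne_top hS.measure_lt_top.ne (measure_mono inter_subset_left)
  have key : ∑ i ∈ M', x i / (n + 1) * volume.real (sec i S) ≤ volume.real S := by
    calc ∑ i ∈ M', x i / (n + 1) * volume.real (sec i S)
        ≤ ∑ i ∈ M', volume.real (R i) := Finset.sum_le_sum fun i hi => by
          have := ENNReal.toReal_mono (hfin i hi) (hle i hi)
          rwa [ENNReal.toReal_mul, ENNReal.toReal_ofReal (div_nonneg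
            (Finset.mem_filter.1 hi).2.le (by positivity))] at this
      _ = volume.real (⋃ i ∈ M', R i) :=
          (measureReal_biUnion_finset hdisj (fun i _ => hRm i) hfin).symm
      _ ≤ volume.real S :=
          measureReal_mono (Set.iUnion₂_subset fun i _ => inter_subset_left) hS.measure_lt_top.ne
  rw [hsum]
  have hn : (0 : ℝ) < n + 1 := by positivity
  have := mul_le_mul_of_nonneg_left key hn.le
  refine le_trans (le_of_eq ?_) this
  rw [Finset.mul_sum]
  refine Finset.sum_congr rfl fun i _ => ?_
  field_simp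

end Vale.Agent.P248
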