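import Vale.Agent.P248.Rot

/-
P248: the symmetric Mahler inequality for bodies invariant under quarter turns in coordinate
planes.

If for every coordinate but one the body is preserved by a mirror or by a quarter turn in a plane
containing that coordinate axis, then all orthant pieces of the body, and of each coordinate
section, have equal volume. The pyramids over the sections then put a whole box into the polar
body, and segments in a convex body bound its volume by its projections.
-/

namespace Vale.Agent.P248

open MeasureTheory Set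
open scoped ENNReal symmDiff

variable {n : ℕ}

/-- The quarter turn in the plane of the coordinates `i`, `k`; the mirror `i` if `k = i`. -/
def qt (i k : Fin n) (p : Fin n → ℝ) : Fin n → ℝ :=
  negOn {i} fun j => p (Equiv.swap i k j)

lemma qt_apply (i k : Fin n) (p : Fin n → ℝ) (j : Fin n) :
    qt i k p j = if j = i then -p k else if j = k then p i else p j := by
  simp only [qt, negOn, Finset.mem_singleton]
  split_ifs with h1 h2
  · subst h1; simp
  · subst h2; simp
  · rw [Equiv.swap_apply_of_ne_of_ne h1 h2]

lemma qt_four (i k : Fin n) (p : Fin n → ℝ) : qt i k (qt i k (qt i k (qt i k p))) = p := by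
  funext j
  by_cases hik : i = k
  · subst hik; by_cases hj : j = i <;> simp [qt_apply, hj]
  · by_cases hj : j = i
    · subst hj; simp [qt_apply, Ne.symm hik]
    · by_cases hk : j = k
      · subst hk; simp [qt_apply, hj]
      · simp [qt_apply, hj, hk]

lemma qt_preserving (i k : Fin n) :
    MeasurePreserving (qt i k) (volume : Measure (Fin n → ℝ)) volume := by
  have h := volume_measurePreserving_piCongrLeft (fun _ : Fin n => ℝ) (Equiv.swap i k)
  have e : qt i k
      = negOn {i} ∘ (MeasurableEquiv.piCongrLeft (fun _ : Fin n => ℝ) (Equiv.swap i k)) := by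
    funext p j
    have h1 : MeasurableEquiv.piCongrLeft (fun _ : Fin n => ℝ) (Equiv.swap i k) p j
        = p (Equiv.swap i k j) := by
      have h2 := MeasurableEquiv.piCongrLeft_apply_apply (β := fun _ : Fin n => ℝ)
        (Equiv.swap i k) p (Equiv.swap i k j)
      rwa [Equiv.swap_apply_self] at h2
    simp only [qt, Function.comp_apply, negOn, h1]
  rw [e]
  exact (negOn_preserving {i}).comp h

/-- The body is preserved by a quarter turn or a mirror moving the coordinate `i`. -/
def HasTurn (K : Set (Fin n → ℝ)) (i : Fin n) : Prop := ∃ k, ∀ p ∈ K, qt i k p ∈ K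

/-- All coordinates but at most one have a turn. -/
def Quartered (K : Set (Fin n → ℝ)) : Prop := ∀ i j, i ≠ j → HasTurn K i ∨ HasTurn K j

lemma qt_insertNth {i' k' : Fin n} (j : Fin (n + 1)) (f : Fin n → ℝ) :
    qt (j.succAbove i') (j.succAbove k') (j.insertNth 0 f) = j.insertNth 0 (qt i' k' f) := by
  refine Fin.eq_insertNth_iff.2 ⟨?_, ?_⟩
  · simp [qt_apply, (Fin.succAbove_ne j i').symm, (Fin.succAbove_ne j k').symm]
  · funext l
    simp [Fin.removeNth, qt_apply]

lemma qt_qt_insertNth {i' : Fin n} (j : Fin (n + 1)) (f : Fin n → ℝ) :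
    qt (j.succAbove i') j (qt (j.succAbove i') j (j.insertNth 0 f))
      = j.insertNth 0 (qt i' i' f) := by
  have hne := Fin.succAbove_ne j i'
  refine Fin.eq_insertNth_iff.2 ⟨?_, ?_⟩
  · simp [qt_apply, hne.symm]
  · funext l
    by_cases hl : l = i'
    · subst hl; simp [Fin.removeNth, qt_apply, hne.symm]
    · simp [Fin.removeNth, qt_apply, hl, Fin.succAbove_ne]

lemma Quartered.sec {K : Set (Fin (n + 1) → ℝ)} (h : Quartered K) (j : Fin (n + 1)) :
    Quartered (sec j K) := by
  have key : ∀ i' : Fin n, HasTurn K (j.succAbove i') → HasTurn (Vale.Agent.P248.sec j K) i' := by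
    rintro i' ⟨k, hk⟩
    rcases eq_or_ne k j with rfl | hkj
    · refine ⟨i', fun f hf => ?_⟩
      rw [mem_sec, ← qt_qt_insertNth]
      exact hk _ (hk _ hf)
    · obtain ⟨k', rfl⟩ := Fin.exists_succAbove_eq hkj
      refine ⟨k', fun f hf => ?_⟩
      rw [mem_sec, ← qt_insertNth]
      exact hk _ hf
  intro a b hab
  exact (h _ _ fun e => hab (Fin.succAbove_right_injective e)).imp (key a) (key b)

/-- The open orthant with negative coordinates in `A`. -/
def orthant (A : Finset (Fin n)) : Set (Fin n → ℝ) :=
  {p | ∀ i, (i ∈ A → p i < 0) ∧ (i ∉ A → 0 < p i)}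

lemma measurableSet_orthant (A : Finset (Fin n)) : MeasurableSet (orthant A) := by
  have : orthant A = ⋂ i, {p : Fin n → ℝ | (i ∈ A → p i < 0) ∧ (i ∉ A → 0 < p i)} := by
    ext p; simp [orthant]
  rw [this]
  refine MeasurableSet.iInter fun i => ?_
  by_cases hi : i ∈ A <;> simp only [hi, not_true_eq_false, not_false_eq_true, forall_const,
    IsEmpty.forall_iff, and_true, true_and]
  · exact measurableSet_lt (measurable_pi_apply i) measurable_const
  · exact measurableSet_lt measurable_const (measurable_pi_apply i)

lemma qt_mem_orthant {i k : Fin n} {A : Finset (Fin n)} (h : i ∈ A ↔ k ∈ A) (p : Fin n → ℝ) :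
    qt i k p ∈ orthant (A ∆ {i}) ↔ p ∈ orthant A := by
  constructor
  · intro hp l
    have hi := hp i
    have hk := hp k
    have hl := hp l
    simp only [Finset.mem_symmDiff, Finset.mem_singleton, qt_apply] at hi hk hl
    by_cases hli : l = i
    · subst hli
      by_cases hkl : k = l
      · subst hkl; simp_all
      · simp_all
    · by_cases hlk : l = k
      · subst hlk; simp_all
      · simp_all
  · intro hp l
    have hi := hp i
    have hk := hp k
    have hl := hp l
    simp only [Finset.mem_symmDiff, Finset.mem_singleton, qt_apply]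
    by_cases hli : l = i
    · subst hli
      simp_all
    · by_cases hlk : l = k
      · subst hlk; simp_all
      · simp_all

lemma piece_flip {K : Set (Fin n → ℝ)} (hK : MeasurableSet K) {i k : Fin n}
    (hinv : ∀ p ∈ K, qt i k p ∈ K) (A : Finset (Fin n)) :
    volume (K ∩ orthant (A ∆ {i})) = volume (K ∩ orthant A) := by
  have hback : ∀ p, qt i k p ∈ K → p ∈ K := fun p hp =>
    qt_four i k p ▸ hinv _ (hinv _ (hinv _ hp))
  have key : ∀ B : Finset (Fin n), (i ∈ B ↔ k ∈ B) →
      volume (K ∩ orthant (B ∆ {i})) = volume (K ∩ orthant B) := fun B hB => by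
    rw [← (qt_preserving i k).measure_preimage (hK.inter (measurableSet_orthant _)).nullMeasurableSet]
    congr 1
    ext p
    simp only [mem_preimage, mem_inter_iff, qt_mem_orthant hB]
    exact ⟨fun ⟨a, b⟩ => ⟨hback p a, b⟩, fun ⟨a, b⟩ => ⟨hinv p a, b⟩⟩
  by_cases h : i ∈ A ↔ k ∈ A
  · exact key A h
  · have hik : k ≠ i := fun e => h (by rw [e])
    have := key (A ∆ {i}) (by
      simp only [Finset.mem_symmDiff, Finset.mem_singleton, hik]
      tauto)
    rw [symmDiff_symmDiff_cancel_right] at this
    exact this.symm

lemma piece_compl {K : Set (Fin n → ℝ)} (hK : MeasurableSet K) (hneg : ∀ p ∈ K, -p ∈ K)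
    (A : Finset (Fin n)) : volume (K ∩ orthant Aᶜ) = volume (K ∩ orthant A) := by
  rw [← (negOn_preserving (Finset.univ : Finset (Fin n))).measure_preimage
    (hK.inter (measurableSet_orthant Aᶜ)).nullMeasurableSet]
  have e : ∀ p : Fin n → ℝ, negOn Finset.univ p = -p := fun p => by funext i; simp [negOn]
  congr 1
  ext p
  simp only [mem_preimage, mem_inter_iff, e, orthant, Set.mem_ofPred_eq, Finset.mem_compl,
    Pi.neg_apply, Left.neg_neg_iff, Left.neg_pos_iff, not_not]
  exact ⟨fun ⟨a, b⟩ => ⟨neg_neg p ▸ hneg _ a, fun i => ⟨(b i).2, (b i).1⟩⟩,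
    fun ⟨a, b⟩ => ⟨hneg p a, fun i => ⟨(b i).2, (b i).1⟩⟩⟩

lemma piece_const {K : Set (Fin n → ℝ)} (hK : MeasurableSet K) (hneg : ∀ p ∈ K, -p ∈ K)
    (hq : Quartered K) (A : Finset (Fin n)) :
    volume (K ∩ orthant A) = volume (K ∩ orthant ∅) := by
  classical
  have step : ∀ i, HasTurn K i → ∀ B, volume (K ∩ orthant (B ∆ {i})) = volume (K ∩ orthant B) :=
    fun i ⟨_, hk⟩ B => piece_flip hK hk B
  have good : ∀ S : Finset (Fin n), (∀ i ∈ S, HasTurn K i) → ∀ B : Finset (Fin n),
      volume (K ∩ orthant (B ∆ S)) = volume (K ∩ orthant B) := by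
    intro S
    induction S using Finset.induction_on with
    | empty => intro _ B; simp [← Finset.bot_eq_empty]
    | insert a s has ih =>
      intro hS B
      have e : B ∆ insert a s = (B ∆ s) ∆ {a} := by
        ext l
        simp only [Finset.mem_symmDiff, Finset.mem_insert, Finset.mem_singleton]
        by_cases hla : l = a
        · subst hla; simp [has]
        · simp [hla]
      rw [e, step a (hS a (Finset.mem_insert_self _ _)),
        ih fun i hi => hS i (Finset.mem_insert_of_mem hi)]
  by_cases hall : ∀ i, HasTurn K i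
  · have := good A (fun i _ => hall i) ∅
    rwa [← Finset.bot_eq_empty, bot_symmDiff] at this
  · obtain ⟨i₀, hi₀⟩ := not_forall.1 hall
    have hoth : ∀ i, i ≠ i₀ → HasTurn K i := fun i hi => (hq i i₀ hi).resolve_right hi₀
    have h1 : ∀ S : Finset (Fin n), i₀ ∉ S → volume (K ∩ orthant S) = volume (K ∩ orthant ∅) := by
      intro S hS
      have := good S (fun i hi => hoth i fun e => hS (e ▸ hi)) ∅
      rwa [← Finset.bot_eq_empty, bot_symmDiff] at this
    by_cases hA : i₀ ∈ A
    · rw [← piece_compl hK hneg A]
      exact h1 _ (by simp [hA])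
    · exact h1 A hA

lemma volume_pieces {K : Set (Fin n → ℝ)} (hK : MeasurableSet K) (hneg : ∀ p ∈ K, -p ∈ K)
    (hq : Quartered K) : volume K = 2 ^ n * volume (K ∩ orthant ∅) := by
  classical
  have hU : volume K = volume (⋃ A ∈ (Finset.univ : Finset (Finset (Fin n))), K ∩ orthant A) := by
    refine le_antisymm ?_ (measure_mono (Set.iUnion₂_subset fun A _ => inter_subset_left))
    calc volume K ≤ volume ((⋃ A ∈ (Finset.univ : Finset (Finset (Fin n))), K ∩ orthant A)
          ∪ ⋃ i, {p : Fin n → ℝ | p i = 0}) := measure_mono fun p hp => by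
            by_cases h : ∀ i, p i ≠ 0
            · refine Or.inl (Set.mem_biUnion (x := Finset.univ.filter fun i => p i < 0)
                (Finset.mem_univ _) ⟨hp, fun i => ?_⟩)
              simp only [Finset.mem_filter, Finset.mem_univ, true_and, not_lt]
              exact ⟨id, fun h' => h'.lt_of_ne (h i).symm⟩
            · push Not at h
              exact Or.inr (Set.mem_iUnion.2 h)
      _ ≤ _ + 0 := (measure_union_le _ _).trans
              (add_le_add le_rfl (measure_iUnion_null volume_coord_zero).le)
      _ = _ := add_zero _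
  rw [hU, measure_biUnion_finset ?_ fun A _ => hK.inter (measurableSet_orthant A)]
  · simp only [piece_const hK hneg hq, Finset.sum_const, Finset.card_univ, Fintype.card_finset,
      Fintype.card_fin, nsmul_eq_mul, Nat.cast_pow, Nat.cast_ofNat]
  · intro A _ B _ hAB
    refine Set.disjoint_left.2 fun p hp hp' => hAB ?_
    ext i
    constructor
    · intro h
      by_contra hB
      exact lt_asymm ((hp.2 i).1 h) ((hp'.2 i).2 hB)
    · intro h
      by_contra hA
      exact lt_asymm ((hp'.2 i).1 h) ((hp.2 i).2 hA)

/-- Each closed orthant carries the same share of the body. -/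
lemma closed_piece {K : Set (Fin n → ℝ)} (hK : IsCompact K) (hneg : ∀ p ∈ K, -p ∈ K)
    (hq : Quartered K) (A : Finset (Fin n)) :
    volume.real K = 2 ^ n * volume.real (negOn A ⁻¹' K ∩ orth Finset.univ) := by
  have hm := hK.isClosed.measurableSet
  have h1 : volume (negOn A ⁻¹' K ∩ orth Finset.univ) = volume (K ∩ orthant A) := by
    rw [← (negOn_preserving A).measure_preimage (hm.inter (measurableSet_orthant A)).nullMeasurableSet]
    refine le_antisymm ?_ (measure_mono fun p hp => ⟨hp.1, fun i _ => ?_⟩)
    · calc volume (negOn A ⁻¹' K ∩ orth Finset.univ)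
          ≤ volume (negOn A ⁻¹' (K ∩ orthant A) ∪ ⋃ i, {p : Fin n → ℝ | p i = 0}) :=
            measure_mono fun p hp => by
              by_cases h : ∀ i, p i ≠ 0
              · refine Or.inl ⟨hp.1, fun i => ?_⟩
                have := (hp.2 i (Finset.mem_univ i)).lt_of_ne (h i).symm
                constructor <;> intro hi <;> simp [negOn, hi, this]
              · push Not at h
                exact Or.inr (Set.mem_iUnion.2 h)
        _ ≤ _ + 0 := (measure_union_le _ _).trans
              (add_le_add le_rfl (measure_iUnion_null volume_coord_zero).le)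
        _ = _ := add_zero _
    · have := hp.2 i
      simp only [negOn] at this
      by_cases hi : i ∈ A
      · have := this.1 hi; simp [hi] at this; exact this.le
      · have := this.2 hi; simp [hi] at this; exact this.le
  rw [measureReal_def, measureReal_def, h1, piece_const hm hneg hq A, volume_pieces hm hneg hq,
    ENNReal.toReal_mul, ENNReal.toReal_pow, ENNReal.toReal_ofNat]

lemma sec_preimage_negOn (j : Fin (n + 1)) (A : Finset (Fin (n + 1)))
    (K : Set (Fin (n + 1) → ℝ)) : sec j (negOn A ⁻¹' K) = negOn (below j A) ⁻¹' sec j K := by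
  ext f
  have e : negOn A (j.insertNth 0 f) = j.insertNth 0 (negOn (below j A) f) := by
    refine Fin.eq_insertNth_iff.2 ⟨by simp [negOn], ?_⟩
    funext l
    simp [Fin.removeNth, negOn, below]
  simp only [mem_sec, mem_preimage, e]

/-- The pyramids over all coordinate sections. -/
theorem pyramid_quarter {K : Set (Fin (n + 1) → ℝ)} (hK : Good K) (hq : Quartered K)
    {x : Fin (n + 1) → ℝ} (hx : x ∈ K) :
    2 * ∑ i, |x i| * volume.real (sec i K) ≤ (n + 1) * volume.real K := by
  classical
  set A := Finset.univ.filter fun i => x i < 0 with hA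
  have habs : ∀ i, negOn A x i = |x i| := fun i => by
    by_cases h : x i < 0
    · simp [negOn, hA, h, abs_of_neg h]
    · simp [negOn, hA, h, abs_of_nonneg (not_lt.1 h)]
  have hcont : Continuous (negOn A : (Fin (n + 1) → ℝ) → Fin (n + 1) → ℝ) :=
    continuous_pi fun i => by
      simp only [negOn]
      split_ifs
      · exact (continuous_apply i).neg
      · exact continuous_apply i
  have hpre : IsCompact (negOn A ⁻¹' K) := by
    refine (hK.compact.image hcont).of_isClosed_subset (hK.compact.isClosed.preimage hcont) ?_
    exact fun p hp => ⟨negOn A p, hp, negOn_negOn A p⟩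
  have hconv : Convex ℝ (negOn A ⁻¹' K) := by
    intro p hp q hq a b ha hb hab
    have e : negOn A (a • p + b • q) = a • negOn A p + b • negOn A q := by
      funext i; simp only [negOn, Pi.add_apply, Pi.smul_apply, smul_eq_mul]; split_ifs <;> ring
    simp only [mem_preimage, e]
    exact hK.convex hp hq ha hb hab
  have hp := pyramid (hpre.inter_right (isClosed_orth _)) (hconv.inter (convex_orth _))
    Finset.univ (fun p hp i hi => hp.2 i hi) (x := negOn A x)
    ⟨by rwa [mem_preimage, negOn_negOn], fun i _ => habs i ▸ abs_nonneg _⟩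
  have hface : ∀ i, volume.real (sec i K)
      = 2 ^ n * volume.real (sec i (negOn A ⁻¹' K ∩ orth Finset.univ)) := fun i => by
    rw [sec_orth, sec_preimage_negOn,
      show below i (Finset.univ : Finset (Fin (n + 1))) = Finset.univ by ext; simp [below]]
    exact closed_piece (hK.sec i).compact (hK.sec i).neg (hq.sec i) _
  have hV := closed_piece hK.compact hK.neg hq A
  calc 2 * ∑ i, |x i| * volume.real (sec i K)
      = 2 ^ (n + 1) * ∑ i, negOn A x i
          * volume.real (sec i (negOn A ⁻¹' K ∩ orth Finset.univ)) := by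
        rw [Finset.mul_sum, Finset.mul_sum]
        refine Finset.sum_congr rfl fun i _ => ?_
        rw [hface i, habs i, pow_succ]; ring
    _ ≤ 2 ^ (n + 1) * ((n + 1) * volume.real (negOn A ⁻¹' K ∩ orth Finset.univ)) :=
        mul_le_mul_of_nonneg_left hp (by positivity)
    _ = (n + 1) * volume.real K := by rw [hV]; ring

/-- The step of the induction: the polar body contains a box. -/
theorem quarter_step {K : Set (Fin (n + 1) → ℝ)} (hK : Good K) (hq : Quartered K) :
    4 * ∑ i, volume.real (sec i K) * volume.real (pol (sec i K))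
      ≤ (n + 1) ^ 2 * (volume.real K * volume.real (pol K)) := by
  classical
  set L := pol K with hL
  have hLg : Good L := hK.pol
  set V := volume.real K with hV
  have hVpos : 0 < V := ENNReal.toReal_pos
    (Measure.measure_pos_of_mem_nhds volume hK.mem_nhds).ne' hK.compact.measure_lt_top.ne
  set c : ℝ := 2 / ((n + 1) * V) with hc
  have hc0 : 0 ≤ c := by positivity
  set y : Fin (n + 1) → ℝ := fun i => c * volume.real (sec i K) with hy
  have hy0 : ∀ i, 0 ≤ y i := fun i => mul_nonneg hc0 measureReal_nonneg
  have hbox : ∀ q : Fin (n + 1) → ℝ, (∀ i, |q i| ≤ y i) → q ∈ L := by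
    intro q hqy x hx
    calc dotProduct x q ≤ ∑ i, |x i| * y i := Finset.sum_le_sum fun i _ => by
          refine (le_abs_self _).trans ?_
          rw [abs_mul]
          exact mul_le_mul_of_nonneg_left (hqy i) (abs_nonneg _)
      _ = c / 2 * (2 * ∑ i, |x i| * volume.real (sec i K)) := by
          simp only [hy, Finset.mul_sum]
          exact Finset.sum_congr rfl fun i _ => by ring
      _ ≤ c / 2 * ((n + 1) * V) :=
          mul_le_mul_of_nonneg_left (pyramid_quarter hK hq hx) (by positivity)
      _ = 1 := by rw [hc]; field_simp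
  set edge : Fin (n + 1) → Fin (n + 1) → ℝ := fun i => Pi.single i (y i) with hedge
  have hz : ∀ l : List (Fin (n + 1)), l.Nodup → ∀ q ∈ zono (l.map edge),
      ∀ i, |q i| ≤ if i ∈ l then y i else 0 := by
    intro l
    induction l with
    | nil =>
      intro _ q hq i
      obtain rfl : q = 0 := hq
      simp
    | cons j l ih =>
      intro hnd q hq i
      obtain ⟨⟨p, a⟩, ⟨hp, ha⟩, rfl⟩ := hq
      obtain ⟨hjl, hnd'⟩ := List.nodup_cons.1 hnd
      have hpi := ih hnd' p hp i
      by_cases hij : i = j
      · subst hij
        simp only [hjl, if_false] at hpi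
        have hp0 : p i = 0 := abs_nonpos_iff.1 hpi
        simp only [List.mem_cons, true_or, if_true, Pi.add_apply, Pi.smul_apply, smul_eq_mul, hedge,
          Pi.single_eq_same, hp0, zero_add, abs_mul, abs_of_nonneg (hy0 i)]
        exact mul_le_of_le_one_left (hy0 i) (abs_le.2 ha)
      · simpa [hedge, hij] using hpi
  have hzono : zono (((Finset.univ : Finset (Fin (n + 1))).toList).map edge) ⊆ L := fun q hq => by
    refine hbox q fun i => ?_
    have := hz _ (Finset.nodup_toList _) q hq i
    simpa using this
  set w : (Fin (n + 1) → ℝ) → ℝ :=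
    fun d => 2 * ∑ i, |d i| * volume.real (pol (sec i K)) with hw
  have hwedge : ∀ i, w (edge i) = 2 * y i * volume.real (pol (sec i K)) := fun i => by
    simp only [hw]
    rw [Finset.sum_eq_single i (fun j _ hj => by simp [hedge, hj])
      (fun h => absurd (Finset.mem_univ i) h)]
    simp [hedge, abs_of_nonneg (hy0 i)]
    ring
  have hbound := zono_bound hLg.compact hLg.convex w
    ((Finset.univ : Finset (Fin (n + 1))).toList.map edge) (by
    intro d hd A' hAc hAconv hLA ε hε
    obtain ⟨i, -, rfl⟩ := List.mem_map.1 hd
    rw [hwedge i]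
    have e : ε • edge i = Pi.single i (ε * y i) := by rw [hedge, ← Pi.single_smul, smul_eq_mul]
    have hp : volume.real (pol (sec i K)) ≤ volume.real (i.removeNth '' A') :=
      measureReal_mono ((pol_sec_proj hK i).trans (image_mono hLA))
        (hAc.image (continuous_removeNth' i)).measure_lt_top.ne
    rw [e]
    refine le_trans ?_ (grow_axis (mul_nonneg hε (hy0 i)) hAc hAconv)
    have := mul_le_mul_of_nonneg_left hp (mul_nonneg hε (hy0 i))
    linarith) hzono
  rw [List.map_map, Finset.sum_map_toList] at hbound
  simp only [Function.comp_apply, hwedge, hy, mul_assoc, ← Finset.mul_sum] at hbound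
  push_cast at hbound
  have h4 := mul_le_mul_of_nonneg_right hbound (by positivity : (0 : ℝ) ≤ (n + 1) * V)
  simp only [hc] at h4
  field_simp at h4
  linarith

/-- The symmetric Mahler inequality with quarter turns. -/
theorem product_bound_quarter : ∀ (n : ℕ) (K : Set (Fin n → ℝ)), Good K → Quartered K →
    (4 : ℝ) ^ n / n.factorial ≤ volume.real K * volume.real (pol K) := by
  intro n
  induction n with
  | zero =>
    intro K hK _
    simpa using product_bound 0 K ∅ hK fun i => i.elim0
  | succ n ih =>
    intro K hK hq
    have hsum := Finset.sum_le_sum fun i (_ : i ∈ Finset.univ) =>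
      ih (sec i K) (hK.sec i) (hq.sec i)
    rw [Finset.sum_const, Finset.card_univ, Fintype.card_fin, nsmul_eq_mul] at hsum
    push_cast at hsum
    have hstep := quarter_step hK hq
    have h5 : 4 * (((n : ℝ) + 1) * (4 ^ n / n.factorial))
        ≤ ((n : ℝ) + 1) ^ 2 * (volume.real K * volume.real (pol K)) := by linarith
    refine le_trans (le_of_eq ?_) ((div_le_iff₀' (by positivity : (0 : ℝ) < (n + 1) ^ 2)).2 h5)
    rw [Nat.factorial_succ, pow_succ]
    push_cast
    have := Nat.factorial_pos n
    field_simp

end Vale.Agent.P248
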