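import Vale.Agent.P248.Mirror

/-
P248: rotations of two coordinates and growth of volume under addition of segments.
-/

namespace Vale.Agent.P248

open MeasureTheory Set
open scoped ENNReal Pointwise

variable {n : ℕ}

/-- Rotation in the plane of the coordinates `t`, `u`. -/
noncomputable def rot (t u : Fin n) (θ : ℝ) : (Fin n → ℝ) →ₗ[ℝ] (Fin n → ℝ) where
  toFun p i := if i = t then Real.cos θ * p t + Real.sin θ * p u
    else if i = u then -Real.sin θ * p t + Real.cos θ * p u else p i
  map_add' p q := by funext i; simp only [Pi.add_apply]; split_ifs <;> ring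
  map_smul' c p := by
    funext i; simp only [Pi.smul_apply, smul_eq_mul, RingHom.id_apply]; split_ifs <;> ring

lemma rot_apply (t u : Fin n) (θ : ℝ) (p : Fin n → ℝ) (i : Fin n) :
    rot t u θ p i = if i = t then Real.cos θ * p t + Real.sin θ * p u
      else if i = u then -Real.sin θ * p t + Real.cos θ * p u else p i := rfl

lemma rot_rot_neg {t u : Fin n} (h : t ≠ u) (θ : ℝ) (p : Fin n → ℝ) :
    rot t u θ (rot t u (-θ) p) = p := by
  have hs := Real.sin_sq_add_cos_sq θ
  funext i
  simp only [rot_apply, Real.cos_neg, Real.sin_neg, if_neg h.symm, if_true, neg_neg]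
  split_ifs with h1 h2
  · subst h1; linear_combination p i * hs
  · subst h2; linear_combination p i * hs
  · rfl

lemma rot_neg_rot {t u : Fin n} (h : t ≠ u) (θ : ℝ) (p : Fin n → ℝ) :
    rot t u (-θ) (rot t u θ p) = p := by
  simpa using rot_rot_neg h (-θ) p

lemma rot_preserving {t u : Fin n} (h : t ≠ u) (θ : ℝ) :
    MeasurePreserving (rot t u θ) (volume : Measure (Fin n → ℝ)) volume := by
  let F : (Fin n → ℝ) →ₗ[ℝ] (Fin n → ℝ) :=
    { toFun := negOn {u}
      map_add' := fun p q => by funext i; simp only [negOn, Pi.add_apply]; split_ifs <;> ring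
      map_smul' := fun c p => by
        funext i; simp only [negOn, Pi.smul_apply, smul_eq_mul, RingHom.id_apply]
        split_ifs <;> ring }
  have hFF : F * F = 1 := LinearMap.ext fun p => negOn_negOn {u} p
  have hconj : rot t u (-θ) = F * rot t u θ * F := by
    refine LinearMap.ext fun p => funext fun i => ?_
    show rot t u (-θ) p i = negOn {u} (rot t u θ (negOn {u} p)) i
    simp only [negOn, rot_apply, Finset.mem_singleton, Real.cos_neg, Real.sin_neg, if_neg h,
      if_true]
    split_ifs with h1 h2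
    · exact absurd (h1.symm.trans h2) h
    all_goals ring
  have hinv : rot t u θ * rot t u (-θ) = 1 := LinearMap.ext fun p => rot_rot_neg h θ p
  have hd : LinearMap.det (rot t u θ) * LinearMap.det (rot t u (-θ)) = 1 := by
    rw [← map_mul, hinv, map_one]
  have hF : LinearMap.det F * LinearMap.det F = 1 := by rw [← map_mul, hFF, map_one]
  rw [hconj, map_mul, map_mul] at hd
  have hsq : LinearMap.det (rot t u θ) ^ 2 = 1 := by
    linear_combination hd - LinearMap.det (rot t u θ) ^ 2 * hF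
  have hne : LinearMap.det (rot t u θ) ≠ 0 := fun h0 => by simp [h0] at hsq
  refine ⟨(LinearMap.continuous_of_finiteDimensional _).measurable, ?_⟩
  rw [Real.map_linearMap_volume_pi_eq_smul_volume_pi hne, abs_inv,
    (pow_eq_one_iff_of_nonneg (abs_nonneg (LinearMap.det (rot t u θ))) two_ne_zero).1
      (by rwa [sq_abs])]
  simp

/-- The rotated body. -/
def rotSet (t u : Fin n) (θ : ℝ) (K : Set (Fin n → ℝ)) : Set (Fin n → ℝ) :=
  rot t u (-θ) ⁻¹' K

lemma rotSet_eq_image {t u : Fin n} (h : t ≠ u) (θ : ℝ) (K : Set (Fin n → ℝ)) :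
    rotSet t u θ K = rot t u θ '' K := by
  ext p
  constructor
  · intro hp; exact ⟨_, hp, rot_rot_neg h θ p⟩
  · rintro ⟨q, hq, rfl⟩; simpa [rotSet, rot_neg_rot h] using hq

lemma volume_rotSet {t u : Fin n} (h : t ≠ u) (θ : ℝ) {K : Set (Fin n → ℝ)}
    (hK : MeasurableSet K) : volume (rotSet t u θ K) = volume K :=
  (rot_preserving h (-θ)).measure_preimage hK.nullMeasurableSet

lemma rot_negOn {t u i : Fin n} (hit : i ≠ t) (hiu : i ≠ u) (θ : ℝ) (p : Fin n → ℝ) :
    rot t u θ (negOn {i} p) = negOn {i} (rot t u θ p) := by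
  funext j
  simp only [rot_apply, negOn, Finset.mem_singleton, if_neg hit.symm, if_neg hiu.symm]
  split_ifs with h1 h2 h3 <;> simp_all

lemma Good.rotSet {K : Set (Fin n → ℝ)} (hK : Good K) {t u : Fin n} (h : t ≠ u) (θ : ℝ) :
    Good (rotSet t u θ K) := by
  have hc : Continuous (rot t u θ) := LinearMap.continuous_of_finiteDimensional _
  refine ⟨rotSet_eq_image h θ K ▸ hK.compact.image hc, hK.convex.linear_preimage _,
    fun p hp => ?_, ?_⟩
  · show rot t u (-θ) (-p) ∈ K
    rw [map_neg]; exact hK.neg _ hp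
  · refine (LinearMap.continuous_of_finiteDimensional (rot t u (-θ))).continuousAt.preimage_mem_nhds
      ?_
    rw [map_zero]; exact hK.mem_nhds

lemma Mirrored.rotSet {M : Finset (Fin n)} {K : Set (Fin n → ℝ)} (hM : Mirrored M K)
    {t u : Fin n} (ht : t ∉ M) (hu : u ∉ M) (θ : ℝ) : Mirrored M (rotSet t u θ K) := by
  intro i hi p hp
  show rot t u (-θ) (negOn {i} p) ∈ K
  have h1 : i ≠ t := fun hc => ht (hc ▸ hi)
  have h2 : i ≠ u := fun hc => hu (hc ▸ hi)
  rw [rot_negOn h1 h2]
  exact hM i hi _ hp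

lemma rot_dot {t u : Fin n} (h : t ≠ u) (θ : ℝ) (p q : Fin n → ℝ) :
    dotProduct (rot t u θ p) q = dotProduct p (rot t u (-θ) q) := by
  simp only [dotProduct]
  rw [← sub_eq_zero, ← Finset.sum_sub_distrib, ← Finset.sum_subset
    (Finset.subset_univ ({t, u} : Finset (Fin n))) (fun i _ hi => ?_), Finset.sum_pair h]
  · simp only [rot_apply, if_true, if_neg h.symm, Real.cos_neg, Real.sin_neg]
    ring
  · simp only [Finset.mem_insert, Finset.mem_singleton, not_or] at hi
    simp [rot_apply, hi.1, hi.2]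

lemma pol_rotSet {t u : Fin n} (h : t ≠ u) (θ : ℝ) (K : Set (Fin n → ℝ)) :
    pol (rotSet t u θ K) = rotSet t u θ (pol K) := by
  ext q
  rw [rotSet_eq_image h θ K]
  simp only [pol, rotSet, mem_preimage, Set.mem_ofPred_eq, forall_mem_image, rot_dot h]

lemma sec_rotSet (i : Fin (n + 1)) (t u : Fin n) (θ : ℝ) (K : Set (Fin (n + 1) → ℝ)) :
    sec i (rotSet (i.succAbove t) (i.succAbove u) θ K) = rotSet t u θ (sec i K) := by
  ext f
  have e : rot (i.succAbove t) (i.succAbove u) (-θ) (i.insertNth 0 f)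
      = i.insertNth 0 (rot t u (-θ) f) := by
    refine Fin.eq_insertNth_iff.2 ⟨?_, ?_⟩
    · simp [rot_apply, (Fin.succAbove_ne i t).symm, (Fin.succAbove_ne i u).symm]
    · funext l
      simp [Fin.removeNth, rot_apply]
  show rot _ _ (-θ) (i.insertNth 0 f) ∈ K ↔ _
  rw [e]
  rfl

lemma volume_sec_rotSet {i t u : Fin (n + 1)} (hti : t ≠ i) (hui : u ≠ i) (h : t ≠ u) (θ : ℝ)
    {K : Set (Fin (n + 1) → ℝ)} (hK : IsCompact K) :
    volume (sec i (rotSet t u θ K)) = volume (sec i K) := by
  obtain ⟨t', rfl⟩ := Fin.exists_succAbove_eq hti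
  obtain ⟨u', rfl⟩ := Fin.exists_succAbove_eq hui
  rw [sec_rotSet, volume_rotSet (fun e => h (congrArg _ e)) θ
    (isCompact_sec hK).isClosed.measurableSet]

/-- The segment `[-d, d]` added to a set. -/
def seg (d : Fin n → ℝ) (A : Set (Fin n → ℝ)) : Set (Fin n → ℝ) :=
  (fun q : (Fin n → ℝ) × ℝ => q.1 + q.2 • d) '' (A ×ˢ Icc (-1) 1)

lemma isCompact_seg {d : Fin n → ℝ} {A : Set (Fin n → ℝ)} (hA : IsCompact A) :
    IsCompact (seg d A) := (hA.prod isCompact_Icc).image (by fun_prop)

lemma convex_seg {d : Fin n → ℝ} {A : Set (Fin n → ℝ)} (hA : Convex ℝ A) :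
    Convex ℝ (seg d A) := by
  rintro _ ⟨⟨p, a⟩, ⟨hp, ha⟩, rfl⟩ _ ⟨⟨q, b⟩, ⟨hq, hb⟩, rfl⟩ x y hx hy hxy
  refine ⟨(x • p + y • q, x • a + y • b),
    ⟨hA hp hq hx hy hxy, (convex_Icc (-1 : ℝ) 1) ha hb hx hy hxy⟩, ?_⟩
  simp only [smul_eq_mul]
  module

lemma subset_seg (d : Fin n → ℝ) (A : Set (Fin n → ℝ)) : A ⊆ seg d A :=
  fun p hp => ⟨(p, 0), ⟨hp, by norm_num⟩, by simp⟩

lemma image_seg (f : (Fin n → ℝ) →ₗ[ℝ] (Fin n → ℝ)) (d : Fin n → ℝ) (A : Set (Fin n → ℝ)) :
    f '' seg d A = seg (f d) (f '' A) := by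
  ext p
  simp only [seg, mem_image, Set.mem_prod, Prod.exists]
  constructor
  · rintro ⟨_, ⟨a, b, h, rfl⟩, rfl⟩
    exact ⟨f a, b, ⟨⟨a, h.1, rfl⟩, h.2⟩, by simp⟩
  · rintro ⟨_, b, ⟨⟨a, ha, rfl⟩, hb⟩, rfl⟩
    exact ⟨_, ⟨a, b, ⟨ha, hb⟩, rfl⟩, by simp⟩

/-- Adding a segment along an axis. -/
lemma grow_axis {t : Fin (n + 1)} {s : ℝ} (hs : 0 ≤ s) {A : Set (Fin (n + 1) → ℝ)}
    (hA : IsCompact A) (hconv : Convex ℝ A) :
    volume.real A + 2 * s * volume.real (t.removeNth '' A)
      ≤ volume.real (seg (Pi.single t s) A) := by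
  have hsymm : ∀ {S : Set (Fin (n + 1) → ℝ)}, IsCompact S →
      volume S = ∫⁻ f : Fin n → ℝ, volume {c : ℝ | t.insertNth c f ∈ S} := by
    intro S hS
    set e := MeasurableEquiv.piFinSuccAbove (fun _ : Fin (n + 1) => ℝ) t with he
    have h := (volume_preserving_piFinSuccAbove (fun _ : Fin (n + 1) => ℝ) t).symm e
    rw [← h.measure_preimage hS.isClosed.measurableSet.nullMeasurableSet,
      Measure.volume_eq_prod, Measure.prod_apply_symm (e.symm.measurable hS.isClosed.measurableSet)]
    rfl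
  set P := t.removeNth '' A
  have hP : IsCompact P := hA.image (continuous_removeNth' t)
  have key : volume A + ENNReal.ofReal (2 * s) * volume P ≤ volume (seg (Pi.single t s) A) := by
    rw [hsymm hA, hsymm (isCompact_seg hA), ← lintegral_indicator_const hP.isClosed.measurableSet,
      ← lintegral_add_right _ (measurable_const.indicator hP.isClosed.measurableSet)]
    refine lintegral_mono fun f => ?_
    set F := {c : ℝ | t.insertNth c f ∈ A} with hF
    rcases F.eq_empty_or_nonempty with h0 | hne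
    · have hf : f ∉ P := by
        rintro ⟨p, hp, rfl⟩
        have : p t ∈ F := by
          show t.insertNth (p t) (t.removeNth p) ∈ A
          rwa [Fin.insertNth_eq_iff.2 ⟨rfl, rfl⟩]
        rw [h0] at this
        exact this
      show volume F + _ ≤ _
      simp [h0, Set.indicator_of_notMem hf]
    · obtain ⟨c0, hc0⟩ := hne
      have hf : f ∈ P := ⟨_, hc0, Fin.removeNth_insertNth _ _ _⟩
      have hne : F.Nonempty := ⟨c0, hc0⟩
      have hFc : IsCompact F := (hA.image (continuous_apply t)).of_isClosed_subset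
        (hA.isClosed.preimage (continuous_id.finInsertNth t continuous_const))
        (fun c hc => ⟨_, hc, by simp⟩)
      set lo := sInf F
      set hi' := sSup F
      have hlo : lo ∈ F := hFc.sInf_mem hne
      have hhi : hi' ∈ F := hFc.sSup_mem hne
      have hle : lo ≤ hi' := csInf_le_csSup hne hFc.bddBelow hFc.bddAbove
      have h1 : volume F ≤ ENNReal.ofReal (hi' - lo) :=
        Real.volume_Icc (a := lo) (b := hi') ▸ measure_mono fun c hc =>
          ⟨csInf_le hFc.bddBelow hc, le_csSup hFc.bddAbove hc⟩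
      have h2 : Icc (lo - s) (hi' + s) ⊆ {c | t.insertNth c f ∈ seg (Pi.single t s) A} := by
        intro c hc
        have hend : ∀ a ∈ F, ∀ b : ℝ, |b| ≤ 1 →
            t.insertNth (a + b * s) f ∈ seg (Pi.single t s) A := by
          intro a ha b hb
          refine ⟨(t.insertNth a f, b), ⟨ha, abs_le.1 hb⟩, ?_⟩
          refine Fin.eq_insertNth_iff.2 ⟨by simp, ?_⟩
          funext l; simp [Fin.removeNth, Fin.succAbove_ne]
        have hS : Convex ℝ {c | t.insertNth c f ∈ seg (Pi.single t s) A} := by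
          intro a ha b hb u v hu hv huv
          have e : (t.insertNth (u • a + v • b) f : Fin (n + 1) → ℝ)
              = u • t.insertNth a f + v • t.insertNth b f := by
            refine Fin.insertNth_eq_iff.2 ⟨by simp, ?_⟩
            funext l
            simp only [Fin.removeNth, Pi.add_apply, Pi.smul_apply, Fin.insertNth_apply_succAbove,
              smul_eq_mul]
            linear_combination -(f l) * huv
          simp only [Set.mem_ofPred_eq, e]
          exact (convex_seg hconv) ha hb hu hv huv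
        refine hS.ordConnected.out ?_ ?_ hc
        · simpa [sub_eq_add_neg] using hend lo hlo (-1) (by simp)
        · simpa using hend hi' hhi 1 (by simp)
      show volume F + _ ≤ _
      rw [Set.indicator_of_mem hf]
      refine le_trans (le_trans (add_le_add h1 le_rfl) (le_of_eq ?_)) (measure_mono h2)
      rw [Real.volume_Icc, ← ENNReal.ofReal_add (by linarith) (by linarith)]
      congr 1; ring
  have := ENNReal.toReal_mono (isCompact_seg hA).measure_lt_top.ne key
  rwa [ENNReal.toReal_add hA.measure_lt_top.ne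
      (ENNReal.mul_ne_top ENNReal.ofReal_ne_top hP.measure_lt_top.ne),
    ENNReal.toReal_mul, ENNReal.toReal_ofReal (by linarith)] at this

/-- Adding several segments. -/
def segs (ε : ℝ) : List (Fin n → ℝ) → Set (Fin n → ℝ) → Set (Fin n → ℝ)
  | [], A => A
  | d :: l, A => seg (ε • d) (segs ε l A)

/-- A zonotope with the given half edges. -/
def zono : List (Fin n → ℝ) → Set (Fin n → ℝ)
  | [] => {0}
  | d :: l => seg d (zono l)

lemma segs_props (ε : ℝ) {A : Set (Fin n → ℝ)} (hA : IsCompact A) (hconv : Convex ℝ A) :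
    ∀ l : List (Fin n → ℝ), IsCompact (segs ε l A) ∧ Convex ℝ (segs ε l A) ∧ A ⊆ segs ε l A ∧
      segs ε l A ⊆ A + ε • zono l
  | [] => ⟨hA, hconv, subset_rfl, fun p hp =>
      ⟨p, hp, 0, ⟨0, rfl, smul_zero _⟩, add_zero _⟩⟩
  | d :: l => by
    obtain ⟨h1, h2, h3, h4⟩ := segs_props ε hA hconv l
    refine ⟨isCompact_seg h1, convex_seg h2, h3.trans (subset_seg _ _), ?_⟩
    rintro _ ⟨⟨p, a⟩, ⟨hp, ha⟩, rfl⟩
    obtain ⟨q, hq, _, ⟨z, hz, rfl⟩, rfl⟩ := h4 hp
    refine ⟨q, hq, ε • (z + a • d), ⟨_, ⟨(z, a), ⟨hz, ha⟩, rfl⟩, rfl⟩, ?_⟩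
    simp only
    module

/-- Segments inside a convex body bound its volume from below. -/
theorem zono_bound {L : Set (Fin n → ℝ)} (hL : IsCompact L) (hconv : Convex ℝ L)
    (w : (Fin n → ℝ) → ℝ) (l : List (Fin n → ℝ))
    (hw : ∀ d ∈ l, ∀ A : Set (Fin n → ℝ), IsCompact A → Convex ℝ A → L ⊆ A → ∀ ε : ℝ, 0 ≤ ε →
      volume.real A + ε * w d ≤ volume.real (seg (ε • d) A))
    (hz : zono l ⊆ L) : (l.map w).sum ≤ n * volume.real L := by
  have hgrow : ∀ ε : ℝ, 0 ≤ ε → ∀ l', (∀ d ∈ l', d ∈ l) →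
      volume.real L + ε * (l'.map w).sum ≤ volume.real (segs ε l' L) := by
    intro ε hε l'
    induction l' with
    | nil => intro _; simp [segs]
    | cons d l' ih =>
      intro hsub
      obtain ⟨h1, h2, h3, -⟩ := segs_props ε hL hconv l'
      have := hw d (hsub d List.mem_cons_self) _ h1 h2 h3 ε hε
      have := ih fun e he => hsub e (List.mem_cons_of_mem _ he)
      simp only [List.map_cons, List.sum_cons, segs]
      linarith
  have hε : ∀ ε : ℝ, 0 < ε →
      (l.map w).sum ≤ n * (1 + ε) ^ n * volume.real L := by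
    intro ε hε
    have hsub : segs ε l L ⊆ (1 + ε) • L := by
      refine (segs_props ε hL hconv l).2.2.2.trans ?_
      rintro _ ⟨q, hq, _, ⟨z, hz', rfl⟩, rfl⟩
      rw [hconv.add_smul zero_le_one hε.le, one_smul]
      exact ⟨q, hq, ε • z, ⟨z, hz hz', rfl⟩, rfl⟩
    have h := (hgrow ε hε.le l fun _ h => h).trans
      (measureReal_mono hsub ((hL.image (continuous_const_smul (1 + ε))).measure_lt_top.ne))
    rw [measureReal_def (s := (1 + ε) • L), Measure.addHaar_smul, ENNReal.toReal_mul,
      ENNReal.toReal_ofReal (abs_nonneg _), Module.finrank_pi, Fintype.card_fin,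
      abs_of_nonneg (by positivity), ← measureReal_def] at h
    have hgeom : (1 + ε) ^ n - 1 ≤ ε * (n * (1 + ε) ^ n) := by
      rw [← geom_sum_mul (1 + ε) n, add_sub_cancel_left, mul_comm]
      refine mul_le_mul_of_nonneg_left ?_ hε.le
      calc ∑ j ∈ Finset.range n, (1 + ε) ^ j ≤ ∑ _j ∈ Finset.range n, (1 + ε) ^ n :=
            Finset.sum_le_sum fun j hj => pow_le_pow_right₀ (by linarith)
              (Finset.mem_range.1 hj).le
        _ = n * (1 + ε) ^ n := by simp
    have := mul_le_mul_of_nonneg_right hgeom (measureReal_nonneg (μ := volume) (s := L))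
    refine le_of_mul_le_mul_left ?_ hε
    linarith
  have hlim : Filter.Tendsto (fun ε : ℝ => n * (1 + ε) ^ n * volume.real L)
      (nhdsWithin 0 (Ioi 0)) (nhds (n * volume.real L)) := by
    refine ((by fun_prop : Continuous fun ε : ℝ => n * (1 + ε) ^ n * volume.real L).tendsto' 0 _
      (by simp)).mono_left nhdsWithin_le_nhds
  exact ge_of_tendsto hlim (eventually_nhdsWithin_of_forall fun ε h => hε ε h)

end Vale.Agent.P248
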